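import Vale.Agent.P083.StateLimit
import Mathlib.Analysis.CStarAlgebra.CStarMatrix

open scoped InnerProductSpace ComplexConjugate ComplexOrder ENNReal
open Filter Topology

namespace Vale.Agent.P083

noncomputable section

section

variable {O : Type*} [CStarAlgebra O] [Nontrivial O] (ω : Ultrafilter ℕ)

/-- The constant sequence. -/
def constBdd (x : O) : Bdd O :=
  ⟨fun _ => x, memℓp_infty ⟨‖x‖, by rintro _ ⟨n, rfl⟩; exact le_rfl⟩⟩

@[simp] theorem constBdd_apply (x : O) (n : ℕ) : constBdd x n = x := rfl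

/-- The diagonal embedding of `O` in its ultrapower. -/
def constHom : O →⋆ₐ[ℂ] Ultrapower ω O where
  toFun x := Ultrapower.mk ω (constBdd x)
  map_one' := Ultrapower.mk_one ω O
  map_mul' x y := by rw [← Ultrapower.mk_mul]; rfl
  map_zero' := Ultrapower.mk_zero ω O
  map_add' x y := by rw [← Ultrapower.mk_add]; rfl
  commutes' c := by
    rw [Algebra.algebraMap_eq_smul_one, Algebra.algebraMap_eq_smul_one, ← Ultrapower.mk_one ω O,
      ← Ultrapower.mk_smul]
    rfl
  map_star' x := by rw [← Ultrapower.mk_star]; rfl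

theorem norm_isometry_le {v : O} (hv : star v * v = 1) : ‖v‖ ≤ 1 := by
  have h1 : ‖v‖ * ‖v‖ = 1 := by rw [← CStarRing.norm_star_mul_self, hv, CStarRing.norm_one]
  nlinarith [norm_nonneg v]

variable {ω}

/-- Excision in the ultrapower, self-adjoint version. -/
theorem excise_ultra_sa {s₁ s₂ : O} (h : CuntzTwo s₁ s₂) (hω : (ω : Filter ℕ) ≤ atTop)
    {C : Type*} [CStarAlgebra C] (e : C →⋆ₐ[ℂ] Ultrapower ω O) (he : Function.Injective e)
    {φ : C →L[ℂ] ℂ} (hφ : IsState φ) {ι : Type*} [Fintype ι] (c : ι → C)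
    (hc : ∀ i, IsSelfAdjoint (c i)) :
    ∃ v : Ultrapower ω O, star v * v = 1 ∧ ∀ i, star v * e (c i) * v = φ (c i) • 1 := by
  choose x hx using fun i => Ultrapower.mk_surjective ω (e (c i))
  let y : ι → Bdd O := fun i => (1 / 2 : ℂ) • (x i + star (x i))
  have hyv : ∀ i n, y i n = (1 / 2 : ℂ) • (x i n + star (x i n)) := fun i n => rfl
  have hy : ∀ i n, IsSelfAdjoint (y i n) := by
    intro i n
    rw [isSelfAdjoint_iff, hyv, star_smul, star_add, star_star, add_comm]
    congr 1
    simp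
  have hmk : ∀ i, Ultrapower.mk ω (y i) = e (c i) := by
    intro i
    show Ultrapower.mk ω ((1 / 2 : ℂ) • (x i + star (x i))) = _
    rw [Ultrapower.mk_smul, Ultrapower.mk_add, Ultrapower.mk_star, hx, ← map_star,
      (hc i).star_eq, ← two_smul ℂ, smul_smul]
    norm_num
  let z : EuclideanSpace ℝ ι := WithLp.toLp 2 fun i => (φ (c i)).re
  have hzφ : ∀ i, φ (c i) = ((z i : ℝ) : ℂ) := by
    intro i
    exact Complex.ext (by simp [z]) (by simpa using hφ.im_eq_zero (hc i))
  have hz : ∀ (l : EuclideanSpace ℝ ι) (M : ℝ),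
      ∑ i, l i * z i + M ≤ ‖Ultrapower.mk ω (∑ i, (l i : ℂ) • y i + (M : ℂ) • 1)‖ := by
    intro l M
    have e1 : Ultrapower.mk ω (∑ i, (l i : ℂ) • y i + (M : ℂ) • 1) =
        e (∑ i, (l i : ℂ) • c i + (M : ℂ) • 1) := by
      rw [Ultrapower.mk_add, Ultrapower.mk_smul, Ultrapower.mk_one, map_add, map_smul, map_one,
        map_sum]
      congr 1
      have : ∀ s : Finset ι, Ultrapower.mk ω (∑ i ∈ s, (l i : ℂ) • y i) =
          ∑ i ∈ s, e ((l i : ℂ) • c i) := by
        classical
        intro s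
        induction s using Finset.induction_on with
        | empty => simp only [Complex.coe_smul, Finset.sum_empty, Ultrapower.mk_zero]
        | insert a s ha ih =>
          rw [Finset.sum_insert ha, Finset.sum_insert ha, Ultrapower.mk_add, ih,
            Ultrapower.mk_smul, hmk, map_smul]
      exact this _
    rw [e1, NonUnitalStarAlgHom.norm_map e he]
    have h2 := hφ.le (∑ i, (l i : ℂ) • c i + (M : ℂ) • 1)
    refine le_trans ?_ h2
    refine le_trans (le_of_eq ?_) (Complex.re_le_norm _)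
    rw [map_add, map_smul, hφ.map_one, map_sum]
    simp only [Complex.coe_smul, ContinuousLinearMap.map_smul_of_tower, Complex.real_smul, smul_eq_mul, mul_one, Complex.add_re, Complex.re_sum, Complex.mul_re, Complex.ofReal_re, Complex.ofReal_im, zero_mul, sub_zero, z]
  have hP : ∀ m : ℕ, ∀ᶠ n in (ω : Filter ℕ), ∃ v : O, star v * v = 1 ∧
      ∀ i, ‖star v * y i n * v - (z i : ℂ) • (1 : O)‖ ≤ 1 / ((m : ℝ) + 1) := by
    intro m
    have hδ : 0 < 1 / ((m : ℝ) + 1) / 2 := by positivity
    classical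
    filter_upwards [state_limit ω y hy z hz hδ] with n hn
    obtain ⟨g, hg, hgz⟩ := hn
    obtain ⟨v, hv1, hv2⟩ := excise_state h hg (Finset.univ.image fun i => y i n) hδ
    refine ⟨v, hv1, fun i => ?_⟩
    have h1 := hv2 (y i n) (Finset.mem_image_of_mem _ (Finset.mem_univ i))
    have h2 : g (y i n) = (((g (y i n)).re : ℝ) : ℂ) :=
      Complex.ext (by simp) (by simpa using hg.im_eq_zero (hy i n))
    have h3 : star v * y i n * v - (z i : ℂ) • (1 : O) =
        (star v * y i n * v - g (y i n) • (1 : O)) +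
          (((g (y i n)).re - z i : ℝ) : ℂ) • (1 : O) := by
      have : ((((g (y i n)).re - z i : ℝ)) : ℂ) = g (y i n) - (z i : ℂ) := by
        rw [Complex.ofReal_sub, ← h2]
      rw [this, sub_smul]; abel
    rw [h3]
    calc _ ≤ ‖star v * y i n * v - g (y i n) • (1 : O)‖ +
          ‖(((g (y i n)).re - z i : ℝ) : ℂ) • (1 : O)‖ := norm_add_le _ _
      _ ≤ 1 / ((m : ℝ) + 1) / 2 + 1 / ((m : ℝ) + 1) / 2 := by
          gcongr
          rw [norm_smul, CStarRing.norm_one, mul_one, Complex.norm_real]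
          exact hgz i
      _ = 1 / ((m : ℝ) + 1) := by ring
  obtain ⟨k, hk, hPk⟩ := exists_diag hω _ hP
  classical
  have hex : ∀ n : ℕ, ∃ v : O, ‖v‖ ≤ 1 ∧
      ((∃ v : O, star v * v = 1 ∧
        ∀ i, ‖star v * y i n * v - (z i : ℂ) • (1 : O)‖ ≤ 1 / ((k n : ℝ) + 1)) →
      star v * v = 1 ∧ ∀ i, ‖star v * y i n * v - (z i : ℂ) • (1 : O)‖ ≤ 1 / ((k n : ℝ) + 1)) := by
    intro n
    by_cases hn : ∃ v : O, star v * v = 1 ∧
        ∀ i, ‖star v * y i n * v - (z i : ℂ) • (1 : O)‖ ≤ 1 / ((k n : ℝ) + 1)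
    · obtain ⟨v, hv⟩ := hn
      exact ⟨v, norm_isometry_le hv.1, fun _ => hv⟩
    · exact ⟨0, by simp only [norm_zero, zero_le_one], fun h => absurd h hn⟩
  choose v hv1 hv2 using hex
  let V : Bdd O := ⟨v, memℓp_infty ⟨1, by rintro _ ⟨n, rfl⟩; exact hv1 n⟩⟩
  have hVn : ∀ n, V n = v n := fun n => rfl
  have hlim : Tendsto (fun n => 1 / ((k n : ℝ) + 1)) ω (𝓝 0) :=
    (tendsto_one_div_add_atTop_nhds_zero_nat (𝕜 := ℝ)).comp hk
  refine ⟨Ultrapower.mk ω V, ?_, fun i => ?_⟩
  · rw [← Ultrapower.mk_star, ← Ultrapower.mk_mul, ← Ultrapower.mk_one ω O, Ultrapower.mk_eq_mk]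
    refine Tendsto.congr' ?_ tendsto_const_nhds
    filter_upwards [hPk] with n hn
    show (0 : ℝ) = ‖star (v n) * v n - 1‖
    rw [(hv2 n hn).1, sub_self, norm_zero]
  · rw [← hmk, ← Ultrapower.mk_star, ← Ultrapower.mk_mul, ← Ultrapower.mk_mul,
      ← Ultrapower.mk_one ω O, ← Ultrapower.mk_smul, Ultrapower.mk_eq_mk]
    refine squeeze_zero' (Eventually.of_forall fun n => norm_nonneg _) ?_ hlim
    filter_upwards [hPk] with n hn
    have := (hv2 n hn).2 i
    rw [hzφ]
    exact this

/-- Excision in the ultrapower. -/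
theorem excise_ultra {s₁ s₂ : O} (h : CuntzTwo s₁ s₂) (hω : (ω : Filter ℕ) ≤ atTop)
    {C : Type*} [CStarAlgebra C] (e : C →⋆ₐ[ℂ] Ultrapower ω O) (he : Function.Injective e)
    {φ : C →L[ℂ] ℂ} (hφ : IsState φ) (X : Finset C) :
    ∃ v : Ultrapower ω O, star v * v = 1 ∧ ∀ c ∈ X, star v * e c * v = φ c • 1 := by
  obtain ⟨v, hv1, hv2⟩ := excise_ultra_sa h hω e he hφ
    (ι := X ⊕ X) (fun i => Sum.elim (fun c => (realPart c.1 : C)) (fun c => (imaginaryPart c.1 : C)) i)
    (by
      rintro (c | c)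
      · exact (realPart c.1).2
      · exact (imaginaryPart c.1).2)
  refine ⟨v, hv1, fun c hc => ?_⟩
  have h1 := hv2 (Sum.inl ⟨c, hc⟩)
  have h2 := hv2 (Sum.inr ⟨c, hc⟩)
  simp only [Sum.elim_inl, Sum.elim_inr] at h1 h2
  conv_lhs => rw [← realPart_add_I_smul_imaginaryPart c]
  conv_rhs => rw [← realPart_add_I_smul_imaginaryPart c]
  rw [map_add, map_smul, mul_add, add_mul, h1, mul_smul_comm, smul_mul_assoc, h2, map_add,
    map_smul, add_smul, smul_smul, smul_eq_mul]

/-- A finite family of isometries with orthogonal ranges summing to one. -/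
theorem exists_isometries {O : Type*} [CStarAlgebra O] {s₁ s₂ : O} (h : CuntzTwo s₁ s₂) (k : ℕ) :
    ∃ r : Fin (k + 1) → O, (∀ p q, star (r p) * r q = if p = q then 1 else 0) ∧
      ∑ p, r p * star (r p) = 1 := by
  induction k with
  | zero =>
    refine ⟨fun _ => 1, fun p q => ?_, by simp only [Nat.reduceAdd, Finset.univ_unique, Fin.default_eq_zero, Fin.isValue, star_one, mul_one, Finset.sum_const, Finset.card_singleton, one_smul]⟩
    rw [if_pos (Subsingleton.elim (α := Fin 1) p q)]; simp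
  | succ k ih =>
    obtain ⟨r, hr1, hr2⟩ := ih
    refine ⟨Fin.cons s₂ fun p => s₁ * r p, fun p q => ?_, ?_⟩
    · refine Fin.cases ?_ (fun p => ?_) p <;> refine Fin.cases ?_ (fun q => ?_) q
      · simp only [Fin.cons_zero, h.iso₂, ↓reduceIte]
      · rw [Fin.cons_zero, Fin.cons_succ, ← mul_assoc, h.orth', zero_mul,
          if_neg (Fin.succ_ne_zero q).symm]
      · rw [Fin.cons_zero, Fin.cons_succ, star_mul, mul_assoc, h.orth, mul_zero,
          if_neg (Fin.succ_ne_zero p)]
      · rw [Fin.cons_succ, Fin.cons_succ, star_mul, mul_assoc, ← mul_assoc (star s₁), h.iso₁,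
          one_mul, hr1]
        simp [Fin.succ_inj]
    · rw [Fin.sum_univ_succ]
      simp only [Fin.cons_zero, Fin.cons_succ, star_mul]
      have : ∑ x : Fin (k + 1), s₁ * r x * (star (r x) * star s₁) = s₁ * star s₁ := by
        calc ∑ x : Fin (k + 1), s₁ * r x * (star (r x) * star s₁)
            = s₁ * (∑ x, r x * star (r x)) * star s₁ := by
              rw [Finset.mul_sum, Finset.sum_mul]
              exact Finset.sum_congr rfl fun x _ => by noncomm_ring
          _ = s₁ * star s₁ := by rw [hr2, mul_one]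
      rw [this, add_comm, h.sum]

section Matrix

variable {B : Type*} [CStarAlgebra B] [PartialOrder B] [StarOrderedRing B]
variable {Q : Type*} [CStarAlgebra Q]

/-- The *-homomorphism `[b_pq] ↦ ∑ R_p e(b_pq) R_q*`. -/
def matHom {k : ℕ} (e : B →⋆ₐ[ℂ] Q) (R : Fin (k + 1) → Q)
    (hR : ∀ p q, star (R p) * R q = if p = q then 1 else 0) (hR1 : ∑ p, R p * star (R p) = 1) :
    CStarMatrix (Fin (k + 1)) (Fin (k + 1)) B →⋆ₐ[ℂ] Q where
  toFun M := ∑ p, ∑ q, R p * e (M p q) * star (R q)
  map_one' := by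
    rw [← hR1]
    refine Finset.sum_congr rfl fun p _ => ?_
    rw [Finset.sum_eq_single p]
    · rw [CStarMatrix.one_apply_eq, map_one, mul_one]
    · intro q _ hq
      rw [CStarMatrix.one_apply_ne (Ne.symm hq), map_zero, mul_zero, zero_mul]
    · simp
  map_mul' M N := by
    have e1 : ∀ p q' : Fin (k + 1), R p * e ((M * N) p q') * star (R q') =
        ∑ q, R p * e (M p q) * e (N q q') * star (R q') := by
      intro p q'
      rw [CStarMatrix.mul_apply, map_sum, Finset.mul_sum, Finset.sum_mul]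
      refine Finset.sum_congr rfl fun q _ => ?_
      rw [map_mul]; noncomm_ring
    simp only [e1]
    rw [Finset.sum_mul]
    refine Finset.sum_congr rfl fun p _ => ?_
    rw [Finset.sum_mul, Finset.sum_comm]
    refine Finset.sum_congr rfl fun q _ => ?_
    symm
    rw [Finset.mul_sum, Finset.sum_eq_single q]
    · rw [Finset.mul_sum]
      refine Finset.sum_congr rfl fun q' _ => ?_
      calc R p * e (M p q) * star (R q) * (R q * e (N q q') * star (R q'))
          = R p * e (M p q) * (star (R q) * R q) * e (N q q') * star (R q') := by noncomm_ring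
        _ = R p * e (M p q) * e (N q q') * star (R q') := by
            rw [hR, if_pos rfl, mul_one]
    · intro q'' _ hq
      rw [Finset.mul_sum]
      refine Finset.sum_eq_zero fun q' _ => ?_
      calc R p * e (M p q) * star (R q) * (R q'' * e (N q'' q') * star (R q'))
          = R p * e (M p q) * (star (R q) * R q'') * e (N q'' q') * star (R q') := by noncomm_ring
        _ = 0 := by rw [hR, if_neg (Ne.symm hq)]; simp
    · simp
  map_zero' := by simp
  map_add' M N := by
    rw [← Finset.sum_add_distrib]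
    refine Finset.sum_congr rfl fun p _ => ?_
    rw [← Finset.sum_add_distrib]
    refine Finset.sum_congr rfl fun q _ => ?_
    rw [CStarMatrix.add_apply, map_add]; noncomm_ring
  commutes' c := by
    rw [Algebra.algebraMap_eq_smul_one, Algebra.algebraMap_eq_smul_one, ← hR1, Finset.smul_sum]
    refine Finset.sum_congr rfl fun p _ => ?_
    rw [Finset.sum_eq_single p]
    · rw [CStarMatrix.smul_apply, CStarMatrix.one_apply_eq, map_smul, map_one, mul_smul_comm,
        mul_one, smul_mul_assoc]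
    · intro q _ hq
      rw [CStarMatrix.smul_apply, CStarMatrix.one_apply_ne (Ne.symm hq), smul_zero, map_zero,
        mul_zero, zero_mul]
    · simp
  map_star' M := by
    rw [star_sum, Finset.sum_comm]
    refine Finset.sum_congr rfl fun p _ => ?_
    rw [star_sum]
    refine Finset.sum_congr rfl fun q _ => ?_
    rw [CStarMatrix.star_apply, map_star]
    simp only [star_mul, star_star]
    noncomm_ring

omit [PartialOrder B] [StarOrderedRing B] in
theorem matHom_apply {k : ℕ} (e : B →⋆ₐ[ℂ] Q) (R : Fin (k + 1) → Q)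
    (hR : ∀ p q, star (R p) * R q = if p = q then 1 else 0) (hR1 : ∑ p, R p * star (R p) = 1)
    (M : CStarMatrix (Fin (k + 1)) (Fin (k + 1)) B) :
    matHom e R hR hR1 M = ∑ p, ∑ q, R p * e (M p q) * star (R q) := rfl

omit [PartialOrder B] [StarOrderedRing B] in
theorem matHom_corner {k : ℕ} (e : B →⋆ₐ[ℂ] Q) (R : Fin (k + 1) → Q)
    (hR : ∀ p q, star (R p) * R q = if p = q then 1 else 0) (hR1 : ∑ p, R p * star (R p) = 1)
    (M : CStarMatrix (Fin (k + 1)) (Fin (k + 1)) B) (p q : Fin (k + 1)) :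
    star (R p) * matHom e R hR hR1 M * R q = e (M p q) := by
  rw [matHom_apply, Finset.mul_sum, Finset.sum_mul, Finset.sum_eq_single p]
  · rw [Finset.mul_sum, Finset.sum_mul, Finset.sum_eq_single q]
    · calc star (R p) * (R p * e (M p q) * star (R q)) * R q
          = (star (R p) * R p) * e (M p q) * (star (R q) * R q) := by noncomm_ring
        _ = e (M p q) := by rw [hR, hR, if_pos rfl, if_pos rfl, one_mul, mul_one]
    · intro q' _ hq
      calc star (R p) * (R p * e (M p q') * star (R q')) * R q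
          = (star (R p) * R p) * e (M p q') * (star (R q') * R q) := by noncomm_ring
        _ = 0 := by rw [hR q' q, if_neg hq, mul_zero]
    · simp only [Finset.mem_univ, not_true_eq_false, IsEmpty.forall_iff]
  · intro p' _ hp
    rw [Finset.mul_sum, Finset.sum_mul]
    refine Finset.sum_eq_zero fun q' _ => ?_
    calc star (R p) * (R p' * e (M p' q') * star (R q')) * R q
        = (star (R p) * R p') * e (M p' q') * (star (R q') * R q) := by noncomm_ring
      _ = 0 := by rw [hR p p', if_neg (Ne.symm hp)]; simp only [zero_mul]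
  · simp only [Finset.mem_univ, not_true_eq_false, IsEmpty.forall_iff]

omit [PartialOrder B] [StarOrderedRing B] in
theorem matHom_injective {k : ℕ} (e : B →⋆ₐ[ℂ] Q) (he : Function.Injective e)
    (R : Fin (k + 1) → Q)
    (hR : ∀ p q, star (R p) * R q = if p = q then 1 else 0) (hR1 : ∑ p, R p * star (R p) = 1) :
    Function.Injective (matHom e R hR hR1) := by
  intro M N hMN
  refine CStarMatrix.ext fun p q => he ?_
  rw [← matHom_corner e R hR hR1 M p q, ← matHom_corner e R hR hR1 N p q, hMN]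

variable {H : Type*} [NormedAddCommGroup H] [InnerProductSpace ℂ H] [CompleteSpace H]

/-- The vector functional of a matrix algebra attached to an orthonormal family. -/
theorem exists_matState {k : ℕ} (f : B →⋆ₐ[ℂ] (H →L[ℂ] H)) (b : Fin (k + 1) → H)
    (hb : ∀ p, ‖b p‖ = 1) :
    ∃ g : CStarMatrix (Fin (k + 1)) (Fin (k + 1)) B →L[ℂ] ℂ, IsState g ∧
      ∀ M, g M = ((k : ℂ) + 1)⁻¹ * ∑ p, ∑ q, ⟪b p, f (M p q) (b q)⟫_ℂ := by
  let φ : CStarMatrix (Fin (k + 1)) (Fin (k + 1)) B →ₗ[ℂ] ℂ :=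
    { toFun := fun M => ((k : ℂ) + 1)⁻¹ * ∑ p, ∑ q, ⟪b p, f (M p q) (b q)⟫_ℂ
      map_add' := by
        intro M N
        rw [← mul_add, ← Finset.sum_add_distrib]
        congr 1
        refine Finset.sum_congr rfl fun p _ => ?_
        rw [← Finset.sum_add_distrib]
        refine Finset.sum_congr rfl fun q _ => ?_
        rw [CStarMatrix.add_apply, map_add, add_apply, inner_add_right]
      map_smul' := by
        intro c M
        rw [RingHom.id_apply, smul_eq_mul, mul_left_comm]
        congr 1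
        rw [Finset.mul_sum]
        refine Finset.sum_congr rfl fun p _ => ?_
        rw [Finset.mul_sum]
        refine Finset.sum_congr rfl fun q _ => ?_
        rw [CStarMatrix.smul_apply, map_smul, smul_apply, inner_smul_right] }
  have hφ : ∀ M, φ M = ((k : ℂ) + 1)⁻¹ * ∑ p, ∑ q, ⟪b p, f (M p q) (b q)⟫_ℂ := fun M => rfl
  have hk : ((k : ℂ) + 1) ≠ 0 := by exact_mod_cast Nat.succ_ne_zero k
  obtain ⟨g, hg1, hg2⟩ := isState_of_pos φ (by
    rw [hφ]
    have : ∀ p : Fin (k + 1), ∑ q : Fin (k + 1),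
        ⟪b p, f ((1 : CStarMatrix (Fin (k + 1)) (Fin (k + 1)) B) p q) (b q)⟫_ℂ = 1 := by
      intro p
      rw [Finset.sum_eq_single p]
      · rw [CStarMatrix.one_apply_eq, map_one]
        show ⟪b p, b p⟫_ℂ = 1
        rw [inner_self_eq_norm_sq_to_K, hb]; simp only [Complex.coe_algebraMap, Complex.ofReal_one, one_pow]
      · intro q _ hq
        rw [CStarMatrix.one_apply_ne (Ne.symm hq), map_zero]
        show ⟪b p, (0 : H)⟫_ℂ = 0
        exact inner_zero_right _
      · simp
    simp only [this]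
    simp only [Finset.sum_const, Finset.card_univ, Fintype.card_fin, nsmul_eq_mul, mul_one]
    push_cast
    exact inv_mul_cancel₀ hk) (by
    intro N
    rw [hφ]
    have e1 : ∀ p q : Fin (k + 1), ⟪b p, f ((star N * N) p q) (b q)⟫_ℂ =
        ∑ r, ⟪f (N r p) (b p), f (N r q) (b q)⟫_ℂ := by
      intro p q
      rw [CStarMatrix.mul_apply, map_sum, sum_apply, inner_sum]
      refine Finset.sum_congr rfl fun r _ => ?_
      rw [CStarMatrix.star_apply, ← pi_mul_apply, ← pi_inner, star_star]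
    have e2 : ∑ p, ∑ q, ⟪b p, f ((star N * N) p q) (b q)⟫_ℂ =
        ∑ r, ⟪∑ p, f (N r p) (b p), ∑ q, f (N r q) (b q)⟫_ℂ := by
      simp only [e1]
      calc ∑ p, ∑ q, ∑ r, ⟪f (N r p) (b p), f (N r q) (b q)⟫_ℂ
          = ∑ p, ∑ r, ∑ q, ⟪f (N r p) (b p), f (N r q) (b q)⟫_ℂ := by
            refine Finset.sum_congr rfl fun p _ => Finset.sum_comm
        _ = ∑ r, ∑ p, ∑ q, ⟪f (N r p) (b p), f (N r q) (b q)⟫_ℂ := Finset.sum_comm
        _ = _ := by
            refine Finset.sum_congr rfl fun r _ => ?_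
            rw [sum_inner]
            refine Finset.sum_congr rfl fun p _ => ?_
            rw [inner_sum]
    rw [e2]
    refine mul_nonneg ?_ (Finset.sum_nonneg fun r _ => ?_)
    · have : ((k : ℂ) + 1)⁻¹ = (((k : ℝ) + 1)⁻¹ : ℝ) := by push_cast; rfl
      rw [this]
      exact_mod_cast (by positivity : (0 : ℝ) ≤ ((k : ℝ) + 1)⁻¹)
    · rw [Complex.nonneg_iff]
      exact ⟨inner_self_nonneg (𝕜 := ℂ), (inner_self_im (𝕜 := ℂ) _).symm⟩)
  exact ⟨g, hg1, hg2⟩

end Matrix

variable {H : Type*} [NormedAddCommGroup H] [InnerProductSpace ℂ H] [CompleteSpace H]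

/-- Absorption of representations by the ultrapower, compression form. -/
theorem absorb_aux {s₁ s₂ : O} (h : CuntzTwo s₁ s₂) (hω : (ω : Filter ℕ) ≤ atTop)
    {B : Type*} [CStarAlgebra B] (e : B →⋆ₐ[ℂ] Ultrapower ω O) (he : Function.Injective e)
    (f : B →⋆ₐ[ℂ] (H →L[ℂ] H)) (V : Submodule ℂ H) [FiniteDimensional ℂ V] (F : Finset B) :
    ∃ T : H →ₗ[ℂ] Ultrapower ω O,
      ∀ c ∈ F, ∀ x ∈ V, ∀ y ∈ V, star (T x) * e c * T y = ⟪x, f c y⟫_ℂ • 1 := by
  classical
  let _ := CStarAlgebra.spectralOrder B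
  let _ := CStarAlgebra.spectralOrderedRing B
  obtain hd | ⟨k, hk⟩ : Module.finrank ℂ V = 0 ∨ ∃ k, Module.finrank ℂ V = k + 1 := by
    cases hd : Module.finrank ℂ V with
    | zero => exact Or.inl rfl
    | succ k => exact Or.inr ⟨k, rfl⟩
  · have hV : V = ⊥ := Submodule.finrank_eq_zero.1 hd
    refine ⟨0, fun c _ x hx y hy => ?_⟩
    rw [hV, Submodule.mem_bot] at hx
    subst hx
    simp only [LinearMap.zero_apply, star_zero, zero_mul, mul_zero, inner_zero_left, zero_smul]
  let b₀ : OrthonormalBasis (Fin (k + 1)) ℂ V :=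
    (stdOrthonormalBasis ℂ V).reindex (finCongr hk)
  let b : Fin (k + 1) → H := fun p => (b₀ p : H)
  have hb : ∀ p, ‖b p‖ = 1 := fun p => b₀.orthonormal.1 p
  have hexp : ∀ x ∈ V, ∑ p, ⟪b p, x⟫_ℂ • b p = x := by
    intro x hx
    have := b₀.sum_repr' ⟨x, hx⟩
    have h2 := congrArg (Subtype.val) this
    simpa only [Submodule.coe_inner, AddSubmonoidClass.coe_finsetSum, SetLike.val_smul] using h2
  obtain ⟨r, hr1, hr2⟩ := exists_isometries h k
  let R : Fin (k + 1) → Ultrapower ω O := fun p => constHom ω (r p)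
  have hR1 : ∀ p q, star (R p) * R q = if p = q then 1 else 0 := by
    intro p q
    show star (constHom ω (r p)) * constHom ω (r q) = _
    rw [← map_star, ← map_mul, hr1]
    split_ifs <;> simp
  have hR2 : ∑ p, R p * star (R p) = 1 := by
    have := congrArg (constHom ω) hr2
    rw [map_one, map_sum] at this
    rw [← this]
    exact Finset.sum_congr rfl fun p _ => by rw [map_mul, map_star]
  obtain ⟨g, hg, hgM⟩ := exists_matState f b hb
  let E : Fin (k + 1) → Fin (k + 1) → B → CStarMatrix (Fin (k + 1)) (Fin (k + 1)) B :=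
    fun p q c => CStarMatrix.ofMatrix (Matrix.single p q c)
  have hE : ∀ p q c p' q', E p q c p' q' = if p = p' ∧ q = q' then c else 0 :=
    fun p q c p' q' => Matrix.single_apply (i := p) (j := q) (c := c) (i' := p') (j' := q')
  obtain ⟨v, -, hv⟩ := excise_ultra h hω (matHom e R hR1 hR2) (matHom_injective e he R hR1 hR2) hg
    (((Finset.univ ×ˢ Finset.univ) ×ˢ F).image fun t => E t.1.1 t.1.2 t.2)
  have hv' : ∀ c ∈ F, ∀ p q, star (star (R p) * v) * e c * (star (R q) * v) =
      (((k : ℂ) + 1)⁻¹ * ⟪b p, f c (b q)⟫_ℂ) • 1 := by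
    intro c hc p q
    have h1 := hv (E p q c) (Finset.mem_image.2 ⟨((p, q), c), by simp [hc], rfl⟩)
    have h2 : matHom e R hR1 hR2 (E p q c) = R p * e c * star (R q) := by
      rw [matHom_apply, Finset.sum_eq_single p]
      · rw [Finset.sum_eq_single q]
        · rw [hE, if_pos ⟨rfl, rfl⟩]
        · intro q' _ hq'
          rw [hE, if_neg (fun hh => hq' hh.2.symm), map_zero, mul_zero, zero_mul]
        · simp only [Finset.mem_univ, not_true_eq_false, IsEmpty.forall_iff]
      · intro p' _ hp'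
        refine Finset.sum_eq_zero fun q' _ => ?_
        rw [hE, if_neg (fun hh => hp' hh.1.symm), map_zero, mul_zero, zero_mul]
      · simp only [Finset.mem_univ, not_true_eq_false, IsEmpty.forall_iff]
    have h3 : g (E p q c) = ((k : ℂ) + 1)⁻¹ * ⟪b p, f c (b q)⟫_ℂ := by
      rw [hgM, Finset.sum_eq_single p]
      · rw [Finset.sum_eq_single q]
        · rw [hE, if_pos ⟨rfl, rfl⟩]
        · intro q' _ hq'
          rw [hE, if_neg (fun hh => hq' hh.2.symm), map_zero, zero_apply, inner_zero_right]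
        · simp
      · intro p' _ hp'
        refine Finset.sum_eq_zero fun q' _ => ?_
        rw [hE, if_neg (fun hh => hp' hh.1.symm), map_zero, zero_apply, inner_zero_right]
      · simp
    rw [h2, h3] at h1
    rw [← h1]
    simp only [star_mul, star_star]
    noncomm_ring
  let c₀ : ℂ := ((√((k : ℝ) + 1) : ℝ) : ℂ)
  have hc₀ : (starRingEnd ℂ) c₀ * c₀ = (k : ℂ) + 1 := by
    rw [Complex.conj_ofReal, ← Complex.ofReal_mul, Real.mul_self_sqrt (by (clear * -; positivity))]
    push_cast; rfl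
  have hk1 : ((k : ℂ) + 1) ≠ 0 := by exact_mod_cast Nat.succ_ne_zero k
  let u : Fin (k + 1) → Ultrapower ω O := fun p => c₀ • (star (R p) * v)
  have hu : ∀ c ∈ F, ∀ p q, star (u p) * e c * u q = ⟪b p, f c (b q)⟫_ℂ • 1 := by
    intro c hc p q
    show star (c₀ • (star (R p) * v)) * e c * (c₀ • (star (R q) * v)) = _
    rw [star_smul, smul_mul_assoc, smul_mul_assoc, mul_smul_comm, hv' c hc, smul_smul, smul_smul]
    congr 1
    rw [RCLike.star_def, ← mul_assoc, hc₀, mul_inv_cancel₀ hk1, one_mul]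
  let T : H →ₗ[ℂ] Ultrapower ω O :=
    ∑ p, (innerSL ℂ (b p) : H →ₗ[ℂ] ℂ).smulRight (u p)
  have hT : ∀ x, T x = ∑ p, ⟪b p, x⟫_ℂ • u p := by
    intro x
    simp only [ContinuousLinearMap.toLinearMap_innerSL_apply, LinearMap.sum_apply, LinearMap.coe_smulRight, innerₛₗ_apply_apply, T]
  refine ⟨T, fun c hc x hx y hy => ?_⟩
  rw [hT, hT, star_sum, Finset.sum_mul, Finset.sum_mul]
  have e1 : ⟪x, f c y⟫_ℂ = ∑ p, ∑ q, (starRingEnd ℂ) ⟪b p, x⟫_ℂ * (⟪b q, y⟫_ℂ *
      ⟪b p, f c (b q)⟫_ℂ) := by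
    conv_lhs => rw [← hexp x hx, ← hexp y hy, map_sum, sum_inner]
    refine Finset.sum_congr rfl fun p _ => ?_
    rw [inner_sum]
    refine Finset.sum_congr rfl fun q _ => ?_
    rw [map_smul, inner_smul_left, inner_smul_right]
  rw [e1, Finset.sum_smul]
  refine Finset.sum_congr rfl fun p _ => ?_
  rw [Finset.mul_sum, Finset.sum_smul]
  refine Finset.sum_congr rfl fun q _ => ?_
  rw [star_smul, smul_mul_assoc, smul_mul_assoc, mul_smul_comm, hu c hc, smul_smul, smul_smul,
    mul_assoc]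
  rfl

/-- **Absorption lemma.** -/
theorem absorb {s₁ s₂ : O} (h : CuntzTwo s₁ s₂) (hω : (ω : Filter ℕ) ≤ atTop)
    {B : Type*} [CStarAlgebra B] (e : B →⋆ₐ[ℂ] Ultrapower ω O) (he : Function.Injective e)
    (f : B →⋆ₐ[ℂ] (H →L[ℂ] H)) (V : Submodule ℂ H) [FiniteDimensional ℂ V] (F : Finset B) :
    ∃ T : H →ₗ[ℂ] Ultrapower ω O,
      (∀ x ∈ V, ∀ y ∈ V, star (T x) * T y = ⟪x, y⟫_ℂ • 1) ∧
      (∀ c ∈ F, ∀ x ∈ V, f c x ∈ V → e c * T x = T (f c x)) := by
  classical
  obtain ⟨T, hT⟩ := absorb_aux h hω e he f V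
    (insert 1 (F ∪ F.image star ∪ F.image fun c => star c * c))
  have hT1 : ∀ x ∈ V, ∀ y ∈ V, star (T x) * T y = ⟪x, y⟫_ℂ • 1 := by
    intro x hx y hy
    have := hT 1 (by simp only [Finset.union_assoc, Finset.mem_insert, Finset.mem_union, Finset.mem_image, true_or]) x hx y hy
    rw [map_one, mul_one, map_one] at this
    exact this
  refine ⟨T, hT1, fun c hc x hx hcx => ?_⟩
  have h1 := hT c (by simp only [Finset.union_assoc, Finset.mem_insert, Finset.mem_union, hc, Finset.mem_image, true_or, or_true]) (f c x) hcx x hx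
  have h2 := hT (star c) (by
    rw [Finset.mem_insert, Finset.mem_union, Finset.mem_union]
    exact Or.inr (Or.inl (Or.inr (Finset.mem_image_of_mem _ hc)))) x hx (f c x) hcx
  have h3 := hT (star c * c) (by
    rw [Finset.mem_insert, Finset.mem_union]
    exact Or.inr (Or.inr (Finset.mem_image.2 ⟨c, hc, rfl⟩))) x hx x hx
  have h4 := hT1 (f c x) hcx (f c x) hcx
  have h5 : star (e c * T x - T (f c x)) * (e c * T x - T (f c x)) = 0 := by
    have : star (e c * T x - T (f c x)) * (e c * T x - T (f c x)) =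
        star (T x) * e (star c * c) * T x - star (T x) * e (star c) * T (f c x)
        - star (T (f c x)) * e c * T x + star (T (f c x)) * T (f c x) := by
      rw [map_mul, map_star]
      simp only [star_sub, star_mul]
      noncomm_ring
    rw [this, h1, h2, h3, h4, ← pi_mul_apply f, ← pi_inner, star_star]
    simp only [inner_self_eq_norm_sq_to_K, Complex.coe_algebraMap, sub_self, zero_sub, neg_add_cancel]
  exact sub_eq_zero.1 ((CStarRing.star_mul_self_eq_zero_iff _).1 h5)

end

end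

end Vale.Agent.P083
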