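import Mathlib.Analysis.CStarAlgebra.Classes
import Mathlib.Topology.Algebra.StarSubalgebra

namespace Vale.Agent.P083

/-- `s₁` and `s₂` are isometries in the unital C*-algebra `O` with `s₁ s₁* + s₂ s₂* = 1`,
and they generate `O` as a C*-algebra. -/
structure CuntzTwo {O : Type*} [CStarAlgebra O] (s₁ s₂ : O) : Prop where
  iso₁ : star s₁ * s₁ = 1
  iso₂ : star s₂ * s₂ = 1
  sum : s₁ * star s₁ + s₂ * star s₂ = 1
  gen : (StarAlgebra.adjoin ℂ ({s₁, s₂} : Set O)).topologicalClosure = ⊤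

end Vale.Agent.P083
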