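import Mathlib.Analysis.CStarAlgebra.Classes
import Mathlib.Order.Filter.Ultrafilter.Defs

open Filter Topology

namespace Vale.Agent.P083

universe u v

/-- The maps `φ n : A → B` form a lift `A → ℓ^∞(ℕ, B)` of an injective unital *-homomorphism
from `A` into the norm ultrapower `B^ω = ℓ^∞(ℕ, B) / {x : lim_ω ‖x n‖ = 0}`: every sequence
`(φ n a)_n` is bounded, `φ` is a unital *-homomorphism modulo sequences that are null along `ω`,
and `(φ n a)_n` is null along `ω` only if `a = 0`. -/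
structure LiftsEmbedding (A : Type u) [CStarAlgebra A] (B : Type v) [CStarAlgebra B]
    (ω : Ultrafilter ℕ) (φ : ℕ → A → B) : Prop where
  bdd : ∀ a, ∃ C : ℝ, ∀ n, ‖φ n a‖ ≤ C
  one : Tendsto (fun n => ‖φ n 1 - 1‖) ω (𝓝 0)
  add : ∀ a b, Tendsto (fun n => ‖φ n (a + b) - (φ n a + φ n b)‖) ω (𝓝 0)
  mul : ∀ a b, Tendsto (fun n => ‖φ n (a * b) - φ n a * φ n b‖) ω (𝓝 0)
  smul : ∀ (c : ℂ) (a : A), Tendsto (fun n => ‖φ n (c • a) - c • φ n a‖) ω (𝓝 0)
  star : ∀ a, Tendsto (fun n => ‖φ n (star a) - star (φ n a)‖) ω (𝓝 0)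
  inj : ∀ a, Tendsto (fun n => ‖φ n a‖) ω (𝓝 0) → a = 0

/-- `A` admits a unital embedding (an injective unital *-homomorphism) into the norm ultrapower
`B^ω`. -/
def EmbedsIn (A : Type u) [CStarAlgebra A] (B : Type v) [CStarAlgebra B] (ω : Ultrafilter ℕ) :
    Prop :=
  ∃ φ : ℕ → A → B, LiftsEmbedding A B ω φ

end Vale.Agent.P083
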