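import Mathlib.Analysis.CStarAlgebra.Classes
import Mathlib.LinearAlgebra.Matrix.ConjTranspose

namespace Vale.Agent.P083

universe u

/-- Complete positivity: for every `n` the entrywise map `Mₙ(A) → Mₙ(B)` sends every element of
the form `X* X` to an element of the form `Y* Y`. -/
def IsCP {A B : Type*} [Ring A] [StarRing A] [Module ℂ A] [Ring B] [StarRing B] [Module ℂ B]
    (f : A →ₗ[ℂ] B) : Prop :=
  ∀ (n : ℕ) (X : Matrix (Fin n) (Fin n) A), ∃ Y : Matrix (Fin n) (Fin n) B,
    ∀ i j, f ((X.conjTranspose * X) i j) = (Y.conjTranspose * Y) i j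

/-- Nuclearity, in the form of the completely positive approximation property: the identity of
`D` is a pointwise limit of compositions `D → Mₖ(ℂ) → D` of unital completely positive maps. -/
def IsNuclear (D : Type u) [CStarAlgebra D] : Prop :=
  ∀ (F : Finset D) (ε : ℝ), 0 < ε → ∃ (k : ℕ) (α : D →ₗ[ℂ] Matrix (Fin k) (Fin k) ℂ)
    (β : Matrix (Fin k) (Fin k) ℂ →ₗ[ℂ] D), IsCP α ∧ IsCP β ∧ α 1 = 1 ∧ β 1 = 1 ∧
      ∀ d ∈ F, ‖β (α d) - d‖ < ε

end Vale.Agent.P083
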