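import Vale.Agent.P083.Absorb

open Filter Topology

namespace Vale.Agent.P083

noncomputable section

variable {O : Type*} [CStarAlgebra O] {s₁ s₂ : O}

/-- the canonical endomorphism `x ↦ s₁ x s₁* + s₂ x s₂*` -/
def lamHom (h : CuntzTwo s₁ s₂) : O →⋆ₐ[ℂ] O where
  toFun x := s₁ * x * star s₁ + s₂ * x * star s₂
  map_one' := by rw [mul_one, mul_one, h.sum]
  map_mul' x y := by
    have e1 := h.orth
    have e2 := h.orth'
    have e3 := h.iso₁
    have e4 := h.iso₂
    calc s₁ * (x * y) * star s₁ + s₂ * (x * y) * star s₂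
        = s₁ * x * 1 * y * star s₁ + s₁ * x * 0 * y * star s₂ + s₂ * x * 0 * y * star s₁ +
          s₂ * x * 1 * y * star s₂ := by noncomm_ring
      _ = (s₁ * x * star s₁ + s₂ * x * star s₂) * (s₁ * y * star s₁ + s₂ * y * star s₂) := by
          nth_rewrite 1 [← e1]
          nth_rewrite 1 [← e2]
          nth_rewrite 1 [← e3]
          nth_rewrite 1 [← e4]
          noncomm_ring
  map_zero' := by simp
  map_add' x y := by noncomm_ring
  commutes' r := by
    rw [Algebra.algebraMap_eq_smul_one, mul_smul_comm, mul_one, smul_mul_assoc, mul_smul_comm,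
      mul_one, smul_mul_assoc, ← smul_add, h.sum]
  map_star' x := by simp [mul_assoc]

theorem lamHom_apply (h : CuntzTwo s₁ s₂) (x : O) :
    lamHom h x = s₁ * x * star s₁ + s₂ * x * star s₂ := rfl

theorem lamHom_mul_s₁ (h : CuntzTwo s₁ s₂) (x : O) : lamHom h x * s₁ = s₁ * x := by
  rw [lamHom_apply, add_mul, mul_assoc _ _ s₁, h.iso₁, mul_assoc _ _ s₁, h.orth']
  simp

theorem lamHom_mul_s₂ (h : CuntzTwo s₁ s₂) (x : O) : lamHom h x * s₂ = s₂ * x := by
  rw [lamHom_apply, add_mul, mul_assoc _ _ s₂, h.orth, mul_assoc _ _ s₂, h.iso₂]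
  simp

theorem star_s₁_mul_lamHom (h : CuntzTwo s₁ s₂) (x : O) :
    star s₁ * lamHom h x = x * star s₁ := by
  have := congr_arg star (lamHom_mul_s₁ h (star x))
  rwa [star_mul, star_mul, ← map_star, star_star] at this

theorem star_s₂_mul_lamHom (h : CuntzTwo s₁ s₂) (x : O) :
    star s₂ * lamHom h x = x * star s₂ := by
  have := congr_arg star (lamHom_mul_s₂ h (star x))
  rwa [star_mul, star_mul, ← map_star, star_star] at this

theorem iter_mul (h : CuntzTwo s₁ s₂) (n : ℕ) (x y : O) :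
    (lamHom h)^[n] (x * y) = (lamHom h)^[n] x * (lamHom h)^[n] y := by
  induction n generalizing x y with
  | zero => rfl
  | succ n ih => rw [Function.iterate_succ_apply, map_mul, ih]; rfl

theorem iter_star (h : CuntzTwo s₁ s₂) (n : ℕ) (x : O) :
    (lamHom h)^[n] (star x) = star ((lamHom h)^[n] x) := by
  induction n generalizing x with
  | zero => rfl
  | succ n ih => rw [Function.iterate_succ_apply, map_star, ih]; rfl

theorem iter_smul_one (h : CuntzTwo s₁ s₂) (n : ℕ) (c : ℂ) :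
    (lamHom h)^[n] (c • (1 : O)) = c • 1 := by
  induction n with
  | zero => rfl
  | succ n ih => rw [Function.iterate_succ_apply, map_smul, map_one, ih]

theorem norm_iter_le (h : CuntzTwo s₁ s₂) (n : ℕ) (x : O) : ‖(lamHom h)^[n] x‖ ≤ ‖x‖ := by
  induction n generalizing x with
  | zero => rfl
  | succ n ih =>
    rw [Function.iterate_succ_apply]
    exact (ih _).trans (NonUnitalStarAlgHom.norm_apply_le (lamHom h) x)

theorem star_s₁_pow_iter' (h : CuntzTwo s₁ s₂) (n : ℕ) (x : O) :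
    (star s₁) ^ n * (lamHom h)^[n] x = x * (star s₁) ^ n := by
  induction n generalizing x with
  | zero => simp
  | succ n ih =>
    rw [pow_succ, mul_assoc, Function.iterate_succ_apply', star_s₁_mul_lamHom, ← mul_assoc, ih,
      mul_assoc]

theorem word_orth (h : CuntzTwo s₁ s₂) (N d : ℕ) (hd : 1 ≤ d) (hdN : d ≤ N) (y y' : O) :
    star (s₁ ^ N * s₂ ^ N * y) * (lamHom h)^[d] (s₁ ^ N * s₂ ^ N * y') = 0 := by
  obtain ⟨m, rfl⟩ := Nat.exists_eq_add_of_le hdN
  obtain ⟨d, rfl⟩ : ∃ e, d = e + 1 := ⟨d - 1, by omega⟩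
  have h2 : (star s₂) ^ (d + 1 + m) * s₁ ^ (d + 1) = 0 := by
    rw [show d + 1 + m = (d + m) + 1 by ring, pow_succ, pow_succ' s₁, mul_assoc,
      ← mul_assoc (star s₂), h.orth']
    simp
  have key : (star s₁) ^ (d + 1 + m) *
      (lamHom h)^[d + 1] (s₁ ^ (d + 1 + m) * s₂ ^ (d + 1 + m) * y') =
      s₁ ^ (d + 1) * s₂ ^ (d + 1 + m) * y' * (star s₁) ^ (d + 1) := by
    calc (star s₁) ^ (d + 1 + m) *
        (lamHom h)^[d + 1] (s₁ ^ (d + 1 + m) * s₂ ^ (d + 1 + m) * y')
        = (star s₁) ^ m * ((star s₁) ^ (d + 1) *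
          (lamHom h)^[d + 1] (s₁ ^ (d + 1 + m) * s₂ ^ (d + 1 + m) * y')) := by
          rw [← mul_assoc, ← pow_add, add_comm m]
      _ = ((star s₁) ^ m * s₁ ^ m) * s₁ ^ (d + 1) * s₂ ^ (d + 1 + m) * y' *
          (star s₁) ^ (d + 1) := by
          rw [star_s₁_pow_iter' h, show s₁ ^ (d + 1 + m) = s₁ ^ m * s₁ ^ (d + 1) by
            rw [← pow_add, add_comm]]
          noncomm_ring
      _ = _ := by rw [star_s₁_pow_mul h, one_mul]
  calc star (s₁ ^ (d + 1 + m) * s₂ ^ (d + 1 + m) * y) *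
        (lamHom h)^[d + 1] (s₁ ^ (d + 1 + m) * s₂ ^ (d + 1 + m) * y')
      = star y * ((star s₂) ^ (d + 1 + m) * ((star s₁) ^ (d + 1 + m) *
        (lamHom h)^[d + 1] (s₁ ^ (d + 1 + m) * s₂ ^ (d + 1 + m) * y'))) := by
        simp only [star_mul, star_pow, mul_assoc]
    _ = star y * (((star s₂) ^ (d + 1 + m) * s₁ ^ (d + 1)) * s₂ ^ (d + 1 + m) * y' *
        (star s₁) ^ (d + 1)) := by rw [key]; noncomm_ring
    _ = 0 := by rw [h2]; simp

theorem word_self (h : CuntzTwo s₁ s₂) (N : ℕ) (y y' : O) :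
    star (s₁ ^ N * s₂ ^ N * y) * (s₁ ^ N * s₂ ^ N * y') = star y * y' := by
  calc star (s₁ ^ N * s₂ ^ N * y) * (s₁ ^ N * s₂ ^ N * y')
      = star y * ((star s₂) ^ N * ((star s₁) ^ N * s₁ ^ N) * s₂ ^ N) * y' := by
        simp only [star_mul, star_pow, mul_assoc]
    _ = star y * y' := by
        rw [star_s₁_pow_mul h, mul_one, star_s₂_pow_mul h, mul_one]

/-- the averaged words -/
def avg (h : CuntzTwo s₁ s₂) (n : ℕ) (y : O) : O :=
  (((√((n + 1 : ℕ) : ℝ))⁻¹ : ℝ) : ℂ) •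
    ∑ L ∈ Finset.range (n + 1), (lamHom h)^[L] (s₁ ^ (n + 1) * s₂ ^ (n + 1) * y)

theorem star_avg_mul_avg (h : CuntzTwo s₁ s₂) (n : ℕ) {y y' : O} {c : ℂ}
    (hy : star y * y' = c • 1) : star (avg h n y) * avg h n y' = c • 1 := by
  have hterm : ∀ L ∈ Finset.range (n + 1), ∀ L' ∈ Finset.range (n + 1),
      star ((lamHom h)^[L] (s₁ ^ (n + 1) * s₂ ^ (n + 1) * y)) *
        (lamHom h)^[L'] (s₁ ^ (n + 1) * s₂ ^ (n + 1) * y') = if L = L' then c • (1 : O) else 0 := by
    intro L hL L' hL'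
    rw [Finset.mem_range] at hL hL'
    rcases lt_trichotomy L L' with hlt | rfl | hlt
    · obtain ⟨d, rfl⟩ := Nat.exists_eq_add_of_lt hlt
      rw [if_neg (by omega), show L + d + 1 = L + (d + 1) by ring, Function.iterate_add_apply,
        ← iter_star, ← iter_mul, word_orth h (n + 1) (d + 1) (by omega) (by omega)]
      have := iter_smul_one h L 0
      simpa using this
    · rw [if_pos rfl, ← iter_star, ← iter_mul, word_self h, hy, iter_smul_one]
    · obtain ⟨d, rfl⟩ := Nat.exists_eq_add_of_lt hlt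
      have key : star ((lamHom h)^[L'] (s₁ ^ (n + 1) * s₂ ^ (n + 1) * y')) *
          (lamHom h)^[L' + d + 1] (s₁ ^ (n + 1) * s₂ ^ (n + 1) * y) = 0 := by
        rw [show L' + d + 1 = L' + (d + 1) by ring, Function.iterate_add_apply,
          ← iter_star, ← iter_mul, word_orth h (n + 1) (d + 1) (by omega) (by omega)]
        have := iter_smul_one h L' 0
        simpa using this
      have := congr_arg star key
      rw [star_mul, star_star, star_zero] at this
      rw [this, if_neg (by omega)]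
  rw [avg, avg, star_smul, smul_mul_smul_comm, star_sum, Finset.sum_mul]
  have e1 : ∑ L ∈ Finset.range (n + 1), star ((lamHom h)^[L] (s₁ ^ (n + 1) * s₂ ^ (n + 1) * y)) *
      ∑ L' ∈ Finset.range (n + 1), (lamHom h)^[L'] (s₁ ^ (n + 1) * s₂ ^ (n + 1) * y') =
      ((n + 1 : ℕ) : ℂ) • (c • (1 : O)) := by
    calc _ = ∑ L ∈ Finset.range (n + 1), c • (1 : O) := by
          refine Finset.sum_congr rfl fun L hL => ?_
          rw [Finset.mul_sum, Finset.sum_congr rfl (hterm L hL), Finset.sum_ite_eq, if_pos hL]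
      _ = _ := by
          rw [Finset.sum_const, Finset.card_range, ← Nat.cast_smul_eq_nsmul ℂ]
  rw [e1, smul_smul]
  have e2 : star (((√((n + 1 : ℕ) : ℝ))⁻¹ : ℝ) : ℂ) * (((√((n + 1 : ℕ) : ℝ))⁻¹ : ℝ) : ℂ) *
      ((n + 1 : ℕ) : ℂ) = 1 := by
    have h1 : (0 : ℝ) < ((n + 1 : ℕ) : ℝ) := by positivity
    have h2 : (√((n + 1 : ℕ) : ℝ))⁻¹ * (√((n + 1 : ℕ) : ℝ))⁻¹ * ((n + 1 : ℕ) : ℝ) = 1 := by
      rw [← mul_inv, Real.mul_self_sqrt h1.le, inv_mul_cancel₀ h1.ne']
    rw [RCLike.star_def, Complex.conj_ofReal]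
    exact_mod_cast h2
  rw [e2, one_smul]

section

variable [Nontrivial O]

theorem norm_avg_le (h : CuntzTwo s₁ s₂) (n : ℕ) {y : O} (hy : star y * y = 1) :
    ‖avg h n y‖ ≤ 1 := by
  have h1 := star_avg_mul_avg h n (c := 1) (y := y) (y' := y) (by rw [hy, one_smul])
  rw [one_smul] at h1
  exact norm_isometry_le h1

theorem norm_word_le (h : CuntzTwo s₁ s₂) (N : ℕ) {y : O} (hy : star y * y = 1) :
    ‖s₁ ^ N * s₂ ^ N * y‖ ≤ 1 :=
  norm_isometry_le (by rw [word_self h, hy])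

theorem norm_comm_aux (h : CuntzTwo s₁ s₂) (n : ℕ) {y : O} (hy : star y * y = 1) {s : O}
    (hs : ‖s‖ ≤ 1) (hcomm : ∀ x, lamHom h x * s = s * x) :
    ‖avg h n y * s - s * avg h n y‖ ≤ 2 / √((n + 1 : ℕ) : ℝ) := by
  set x := s₁ ^ (n + 1) * s₂ ^ (n + 1) * y with hx
  have hs1 : (∑ L ∈ Finset.range (n + 1), (lamHom h)^[L] x) * s =
      ∑ L ∈ Finset.range n, s * (lamHom h)^[L] x + x * s := by
    rw [Finset.sum_range_succ', add_mul, Finset.sum_mul]
    congr 1
    refine Finset.sum_congr rfl fun i _ => ?_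
    rw [Function.iterate_succ_apply', hcomm]
  have hs2 : s * (∑ L ∈ Finset.range (n + 1), (lamHom h)^[L] x) =
      ∑ L ∈ Finset.range n, s * (lamHom h)^[L] x + s * (lamHom h)^[n] x := by
    rw [Finset.sum_range_succ, mul_add, Finset.mul_sum]
  have e : avg h n y * s - s * avg h n y =
      (((√((n + 1 : ℕ) : ℝ))⁻¹ : ℝ) : ℂ) • (x * s - s * (lamHom h)^[n] x) := by
    rw [avg, smul_mul_assoc, mul_smul_comm, ← smul_sub, ← hx, hs1, hs2]
    congr 1
    abel
  have hx1 : ‖x‖ ≤ 1 := norm_word_le h _ hy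
  have hpos : (0 : ℝ) < √((n + 1 : ℕ) : ℝ) := Real.sqrt_pos.2 (by positivity)
  rw [e, norm_smul, Complex.norm_real, Real.norm_of_nonneg (by positivity), div_eq_inv_mul]
  gcongr
  calc ‖x * s - s * (lamHom h)^[n] x‖ ≤ ‖x‖ * ‖s‖ + ‖s‖ * ‖(lamHom h)^[n] x‖ :=
        (norm_sub_le _ _).trans (add_le_add (norm_mul_le _ _) (norm_mul_le _ _))
    _ ≤ 1 * 1 + 1 * 1 := by
        gcongr
        exact (norm_iter_le h n x).trans hx1
    _ = 2 := by norm_num

theorem norm_comm_aux' (h : CuntzTwo s₁ s₂) (n : ℕ) {y : O} (hy : star y * y = 1) {s : O}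
    (hs : ‖s‖ ≤ 1) (hcomm : ∀ x, s * lamHom h x = x * s) :
    ‖avg h n y * s - s * avg h n y‖ ≤ 2 / √((n + 1 : ℕ) : ℝ) := by
  set x := s₁ ^ (n + 1) * s₂ ^ (n + 1) * y with hx
  have hs1 : s * (∑ L ∈ Finset.range (n + 1), (lamHom h)^[L] x) =
      ∑ L ∈ Finset.range n, (lamHom h)^[L] x * s + s * x := by
    rw [Finset.sum_range_succ', mul_add, Finset.mul_sum]
    congr 1
    refine Finset.sum_congr rfl fun i _ => ?_
    rw [Function.iterate_succ_apply', hcomm]
  have hs2 : (∑ L ∈ Finset.range (n + 1), (lamHom h)^[L] x) * s =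
      ∑ L ∈ Finset.range n, (lamHom h)^[L] x * s + (lamHom h)^[n] x * s := by
    rw [Finset.sum_range_succ, add_mul, Finset.sum_mul]
  have e : avg h n y * s - s * avg h n y =
      (((√((n + 1 : ℕ) : ℝ))⁻¹ : ℝ) : ℂ) • ((lamHom h)^[n] x * s - s * x) := by
    rw [avg, smul_mul_assoc, mul_smul_comm, ← smul_sub, ← hx, hs1, hs2]
    congr 1
    abel
  have hx1 : ‖x‖ ≤ 1 := norm_word_le h _ hy
  have hpos : (0 : ℝ) < √((n + 1 : ℕ) : ℝ) := Real.sqrt_pos.2 (by positivity)
  rw [e, norm_smul, Complex.norm_real, Real.norm_of_nonneg (by positivity), div_eq_inv_mul]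
  gcongr
  calc ‖(lamHom h)^[n] x * s - s * x‖ ≤ ‖(lamHom h)^[n] x‖ * ‖s‖ + ‖s‖ * ‖x‖ :=
        (norm_sub_le _ _).trans (add_le_add (norm_mul_le _ _) (norm_mul_le _ _))
    _ ≤ 1 * 1 + 1 * 1 := by
        gcongr
        exact (norm_iter_le h n x).trans hx1
    _ = 2 := by norm_num

/-- asymptotic commutation with all elements -/
theorem tendsto_comm (h : CuntzTwo s₁ s₂) {y : O} (hy : star y * y = 1) (x : O) :
    Tendsto (fun n => ‖avg h n y * x - x * avg h n y‖) atTop (𝓝 0) := by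
  have hlim : Tendsto (fun n : ℕ => 2 / √((n + 1 : ℕ) : ℝ)) atTop (𝓝 0) := by
    have h1 : Tendsto (fun n : ℕ => ((n + 1 : ℕ) : ℝ)) atTop atTop :=
      (tendsto_natCast_atTop_atTop (R := ℝ)).comp (tendsto_add_atTop_nat 1)
    exact Tendsto.const_div_atTop (Real.tendsto_sqrt_atTop.comp h1) 2
  have gen : ∀ x : O, (∀ n, ‖avg h n y * x - x * avg h n y‖ ≤ 2 / √((n + 1 : ℕ) : ℝ)) →
      Tendsto (fun n => ‖avg h n y * x - x * avg h n y‖) atTop (𝓝 0) := fun x hx =>
    squeeze_zero (fun _ => norm_nonneg _) hx hlim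
  have hn1 := h.norm_le.1
  have hn2 := h.norm_le.2
  have hgood : ∀ x ∈ StarAlgebra.adjoin ℂ ({s₁, s₂} : Set O),
      Tendsto (fun n => ‖avg h n y * x - x * avg h n y‖) atTop (𝓝 0) ∧
      Tendsto (fun n => ‖avg h n y * star x - star x * avg h n y‖) atTop (𝓝 0) := by
    intro x hx
    induction hx using StarAlgebra.adjoin_induction with
    | mem x hx =>
      rcases hx with rfl | rfl
      · exact ⟨gen _ fun n => norm_comm_aux h n hy hn1 (lamHom_mul_s₁ h),
          gen _ fun n => norm_comm_aux' h n hy (by rwa [norm_star]) (star_s₁_mul_lamHom h)⟩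
      · exact ⟨gen _ fun n => norm_comm_aux h n hy hn2 (lamHom_mul_s₂ h),
          gen _ fun n => norm_comm_aux' h n hy (by rwa [norm_star]) (star_s₂_mul_lamHom h)⟩
    | algebraMap r =>
      constructor
      · simp [Algebra.commutes]
      · rw [← algebraMap_star_comm]
        simp [Algebra.commutes]
    | add x z _ _ hx hz =>
      have aux : ∀ x z : O, Tendsto (fun n => ‖avg h n y * x - x * avg h n y‖) atTop (𝓝 0) →
          Tendsto (fun n => ‖avg h n y * z - z * avg h n y‖) atTop (𝓝 0) →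
          Tendsto (fun n => ‖avg h n y * (x + z) - (x + z) * avg h n y‖) atTop (𝓝 0) := by
        intro x z hx hz
        have h1 := hx.add hz
        rw [add_zero] at h1
        refine squeeze_zero (fun _ => norm_nonneg _) (fun n => ?_) h1
        calc ‖avg h n y * (x + z) - (x + z) * avg h n y‖
            = ‖(avg h n y * x - x * avg h n y) + (avg h n y * z - z * avg h n y)‖ := by
              congr 1; noncomm_ring
          _ ≤ _ := norm_add_le _ _
      exact ⟨aux _ _ hx.1 hz.1, by rw [star_add]; exact aux _ _ hx.2 hz.2⟩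
    | mul x z _ _ hx hz =>
      have aux : ∀ x z : O, Tendsto (fun n => ‖avg h n y * x - x * avg h n y‖) atTop (𝓝 0) →
          Tendsto (fun n => ‖avg h n y * z - z * avg h n y‖) atTop (𝓝 0) →
          Tendsto (fun n => ‖avg h n y * (x * z) - (x * z) * avg h n y‖) atTop (𝓝 0) := by
        intro x z hx hz
        have h1 := (hx.mul_const ‖z‖).add (hz.const_mul ‖x‖)
        rw [zero_mul, mul_zero, add_zero] at h1
        refine squeeze_zero (fun _ => norm_nonneg _) (fun n => ?_) h1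
        calc ‖avg h n y * (x * z) - (x * z) * avg h n y‖
            = ‖(avg h n y * x - x * avg h n y) * z + x * (avg h n y * z - z * avg h n y)‖ := by
              congr 1; noncomm_ring
          _ ≤ _ := (norm_add_le _ _).trans (add_le_add (norm_mul_le _ _) (norm_mul_le _ _))
      exact ⟨aux _ _ hx.1 hz.1, by rw [star_mul]; exact aux _ _ hz.2 hx.2⟩
    | star x _ hx => exact ⟨hx.2, by rw [star_star]; exact hx.1⟩
  have hx : x ∈ (StarAlgebra.adjoin ℂ ({s₁, s₂} : Set O)).topologicalClosure := by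
    rw [h.gen]; trivial
  rw [Metric.tendsto_atTop]
  intro ε hε
  obtain ⟨z, hz, hxz⟩ := Metric.mem_closure_iff.1 hx (ε / 4) (by positivity)
  rw [dist_eq_norm] at hxz
  obtain ⟨N, hN⟩ := Metric.tendsto_atTop.1 (hgood z hz).1 (ε / 2) (by positivity)
  refine ⟨N, fun n hn => ?_⟩
  have h1 := hN n hn
  rw [Real.dist_0_eq_abs, abs_norm] at h1 ⊢
  have h2 : ‖avg h n y‖ ≤ 1 := norm_avg_le h n hy
  calc ‖avg h n y * x - x * avg h n y‖
      = ‖avg h n y * (x - z) + (avg h n y * z - z * avg h n y) - (x - z) * avg h n y‖ := by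
        congr 1; noncomm_ring
    _ ≤ ‖avg h n y‖ * ‖x - z‖ + ‖avg h n y * z - z * avg h n y‖ + ‖x - z‖ * ‖avg h n y‖ :=
        (norm_sub_le _ _).trans (add_le_add ((norm_add_le _ _).trans
          (add_le_add (norm_mul_le _ _) le_rfl)) (norm_mul_le _ _))
    _ ≤ 1 * ‖x - z‖ + ‖avg h n y * z - z * avg h n y‖ + ‖x - z‖ * 1 := by gcongr
    _ < ε := by linarith

end

/-- the bounded sequence with given entries -/
def bddOf {O : Type*} [CStarAlgebra O] [Nontrivial O] (f : ℕ → O) (C : ℝ)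
    (hf : ∀ n, ‖f n‖ ≤ C) : Bdd O :=
  ⟨f, memℓp_infty ⟨C, by rintro _ ⟨n, rfl⟩; exact hf n⟩⟩

@[simp] theorem bddOf_apply {O : Type*} [CStarAlgebra O] [Nontrivial O] (f : ℕ → O) (C : ℝ)
    (hf : ∀ n, ‖f n‖ ≤ C) (n : ℕ) : bddOf f C hf n = f n := rfl

/-- **`O₂`-stability**: every countable subset of the ultrapower commutes with two isometries with
orthogonal ranges. -/
theorem exists_commuting {O : Type*} [CStarAlgebra O] [Nontrivial O] {s₁ s₂ : O}
    (h : CuntzTwo s₁ s₂) {ω : Ultrafilter ℕ} (hω : (ω : Filter ℕ) ≤ atTop)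
    (X : ℕ → Ultrapower ω O) :
    ∃ S₁ S₂ : Ultrapower ω O, star S₁ * S₁ = 1 ∧ star S₂ * S₂ = 1 ∧ star S₁ * S₂ = 0 ∧
      ∀ n, S₁ * X n = X n * S₁ ∧ S₂ * X n = X n * S₂ := by
  choose x hx using fun n => Ultrapower.mk_surjective ω (X n)
  have hi1 : star s₁ * s₁ = 1 := h.iso₁
  have hi2 : star s₂ * s₂ = 1 := h.iso₂
  have hN : ∀ n : ℕ, ∃ N, ∀ j ∈ Finset.range (n + 1),
      ‖avg h N s₁ * x j n - x j n * avg h N s₁‖ ≤ 1 / ((n : ℝ) + 1) ∧
      ‖avg h N s₂ * x j n - x j n * avg h N s₂‖ ≤ 1 / ((n : ℝ) + 1) := by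
    intro n
    have hpos : (0 : ℝ) < 1 / ((n : ℝ) + 1) := by positivity
    have : ∀ᶠ N in atTop, ∀ j ∈ Finset.range (n + 1),
        ‖avg h N s₁ * x j n - x j n * avg h N s₁‖ ≤ 1 / ((n : ℝ) + 1) ∧
        ‖avg h N s₂ * x j n - x j n * avg h N s₂‖ ≤ 1 / ((n : ℝ) + 1) :=
      (Finset.eventually_all _).2 fun j _ =>
        ((tendsto_comm h hi1 (x j n)).eventually_le_const hpos).and
          ((tendsto_comm h hi2 (x j n)).eventually_le_const hpos)
    exact this.exists
  choose N hN using hN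
  have hlim : Tendsto (fun n : ℕ => 1 / ((n : ℝ) + 1)) ω (𝓝 0) :=
    tendsto_one_div_add_atTop_nhds_zero_nat.mono_left hω
  let L₁ : Bdd O := bddOf (fun n => avg h (N n) s₁) 1 fun n => norm_avg_le h _ hi1
  let L₂ : Bdd O := bddOf (fun n => avg h (N n) s₂) 1 fun n => norm_avg_le h _ hi2
  have e1 : star L₁ * L₁ = 1 := by
    ext n
    have := star_avg_mul_avg h (N n) (c := 1) (y := s₁) (y' := s₁) (by rw [hi1, one_smul])
    rw [one_smul] at this
    simpa [L₁] using this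
  have e2 : star L₂ * L₂ = 1 := by
    ext n
    have := star_avg_mul_avg h (N n) (c := 1) (y := s₂) (y' := s₂) (by rw [hi2, one_smul])
    rw [one_smul] at this
    simpa [L₂] using this
  have e3 : star L₁ * L₂ = 0 := by
    ext n
    have := star_avg_mul_avg h (N n) (c := 0) (y := s₁) (y' := s₂) (by rw [h.orth, zero_smul])
    rw [zero_smul] at this
    simpa [L₁, L₂] using this
  refine ⟨Ultrapower.mk ω L₁, Ultrapower.mk ω L₂, ?_, ?_, ?_, fun j => ⟨?_, ?_⟩⟩
  · rw [← Ultrapower.mk_star, ← Ultrapower.mk_mul, e1, Ultrapower.mk_one]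
  · rw [← Ultrapower.mk_star, ← Ultrapower.mk_mul, e2, Ultrapower.mk_one]
  · rw [← Ultrapower.mk_star, ← Ultrapower.mk_mul, e3, Ultrapower.mk_zero]
  · rw [← hx j, ← Ultrapower.mk_mul, ← Ultrapower.mk_mul, Ultrapower.mk_eq_mk]
    refine squeeze_zero' (Eventually.of_forall fun _ => norm_nonneg _) ?_ hlim
    filter_upwards [hω (eventually_ge_atTop j)] with n hn
    exact (hN n j (Finset.mem_range.2 (Nat.lt_succ_of_le hn))).1
  · rw [← hx j, ← Ultrapower.mk_mul, ← Ultrapower.mk_mul, Ultrapower.mk_eq_mk]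
    refine squeeze_zero' (Eventually.of_forall fun _ => norm_nonneg _) ?_ hlim
    filter_upwards [hω (eventually_ge_atTop j)] with n hn
    exact (hN n j (Finset.mem_range.2 (Nat.lt_succ_of_le hn))).2

end

end Vale.Agent.P083
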