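import Vale.Agent.P083.Stable

open Filter Topology

namespace Vale.Agent.P083

noncomputable section

universe u v

/-- two isometries whose ranges are complementary -/
structure IsCuntzPair {Q : Type*} [CStarAlgebra Q] (y₁ y₂ : Q) : Prop where
  iso₁ : star y₁ * y₁ = 1
  iso₂ : star y₂ * y₂ = 1
  sum : y₁ * star y₁ + y₂ * star y₂ = 1

namespace IsCuntzPair

variable {Q : Type*} [CStarAlgebra Q] {y₁ y₂ : Q}

theorem orth (h : IsCuntzPair y₁ y₂) : star y₁ * y₂ = 0 := by
  have h1 : (y₁ * star y₁) * (y₁ * star y₁) = y₁ * star y₁ := by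
    rw [mul_assoc, ← mul_assoc (star y₁), h.iso₁, one_mul]
  have h2 : star (star y₁ * y₂) * (star y₁ * y₂) = 0 := by
    have e : y₁ * star y₁ = 1 - y₂ * star y₂ := eq_sub_of_add_eq h.sum
    calc star (star y₁ * y₂) * (star y₁ * y₂) = star y₂ * (y₁ * star y₁) * y₂ := by
          simp [mul_assoc]
      _ = star y₂ * y₂ - (star y₂ * y₂) * (star y₂ * y₂) := by rw [e]; noncomm_ring
      _ = 0 := by rw [h.iso₂]; simp
  exact (CStarRing.star_mul_self_eq_zero_iff _).1 h2

theorem orth' (h : IsCuntzPair y₁ y₂) : star y₂ * y₁ = 0 := by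
  have := congr_arg star h.orth
  simpa using this

end IsCuntzPair

theorem CuntzTwo.pair {O : Type*} [CStarAlgebra O] {s₁ s₂ : O} (h : CuntzTwo s₁ s₂) :
    IsCuntzPair s₁ s₂ := ⟨h.iso₁, h.iso₂, h.sum⟩

theorem IsCuntzPair.map {P Q : Type*} [CStarAlgebra P] [CStarAlgebra Q] {s₁ s₂ : P}
    (h : IsCuntzPair s₁ s₂) (f : P →⋆ₐ[ℂ] Q) : IsCuntzPair (f s₁) (f s₂) :=
  ⟨by rw [← map_star, ← map_mul, h.iso₁, map_one],
   by rw [← map_star, ← map_mul, h.iso₂, map_one],
   by rw [← map_star, ← map_mul, ← map_star, ← map_mul, ← map_add, h.sum, map_one]⟩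

/-- Compression of a *-homomorphism to a corner. -/
def cornerHom {A : Type*} {Q : Type*} [CStarAlgebra A] [CStarAlgebra Q] (E : A →⋆ₐ[ℂ] Q)
    (w : Q) (hw : star w * w = 1) (hc : ∀ a, E a * (w * star w) = (w * star w) * E a) :
    A →⋆ₐ[ℂ] Q where
  toFun a := star w * E a * w
  map_one' := by rw [map_one, mul_one, hw]
  map_mul' a b := by
    rw [map_mul]
    calc star w * (E a * E b) * w = (star w * w) * star w * (E a * E b) * w := by
          rw [hw, one_mul]
      _ = star w * ((w * star w) * E a) * E b * w := by noncomm_ring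
      _ = star w * E a * w * (star w * E b * w) := by rw [← hc]; noncomm_ring
  map_zero' := by simp
  map_add' a b := by rw [map_add]; noncomm_ring
  commutes' r := by
    rw [AlgHomClass.commutes, Algebra.algebraMap_eq_smul_one, mul_smul_comm, mul_one,
      smul_mul_assoc, hw]
  map_star' a := by simp [map_star, mul_assoc]

theorem cornerHom_apply {A : Type*} {Q : Type*} [CStarAlgebra A] [CStarAlgebra Q]
    (E : A →⋆ₐ[ℂ] Q) (w : Q) (hw : star w * w = 1)
    (hc : ∀ a, E a * (w * star w) = (w * star w) * E a) (a : A) :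
    cornerHom E w hw hc a = star w * E a * w := rfl

/-- From a pair of commuting isometries with orthogonal ranges to a commuting Cuntz pair. -/
theorem exists_cornerHom {A : Type*} {Q : Type*} [CStarAlgebra A] [CStarAlgebra Q]
    (E : A →⋆ₐ[ℂ] Q) (hE : Function.Injective E) {c₁ c₂ : Q} (hc : IsCuntzPair c₁ c₂)
    {S T : Q} (hS : star S * S = 1) (hT : star T * T = 1) (hST : star S * T = 0)
    (hcS : ∀ a, S * E a = E a * S) (hcT : ∀ a, T * E a = E a * T) :
    ∃ (E' : A →⋆ₐ[ℂ] Q) (y₁ y₂ : Q), Function.Injective E' ∧ IsCuntzPair y₁ y₂ ∧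
      ∀ a, y₁ * E' a = E' a * y₁ ∧ y₂ * E' a = E' a * y₂ := by
  have hTS : star T * S = 0 := by
    have := congr_arg star hST
    simpa using this
  have hcS' : ∀ a, star S * E a = E a * star S := by
    intro a
    have := congr_arg star (hcS (star a))
    simpa [map_star] using this.symm
  have hcT' : ∀ a, star T * E a = E a * star T := by
    intro a
    have := congr_arg star (hcT (star a))
    simpa [map_star] using this.symm
  have r1 : ∀ x : Q, star S * (S * x) = x := fun x => by rw [← mul_assoc, hS, one_mul]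
  have r2 : ∀ x : Q, star T * (T * x) = x := fun x => by rw [← mul_assoc, hT, one_mul]
  have r3 : ∀ x : Q, star S * (T * x) = 0 := fun x => by rw [← mul_assoc, hST, zero_mul]
  have r4 : ∀ x : Q, star T * (S * x) = 0 := fun x => by rw [← mul_assoc, hTS, zero_mul]
  have c1 : ∀ x : Q, star c₁ * (c₁ * x) = x := fun x => by rw [← mul_assoc, hc.iso₁, one_mul]
  have c2 : ∀ x : Q, star c₂ * (c₂ * x) = x := fun x => by rw [← mul_assoc, hc.iso₂, one_mul]
  have c3 : ∀ x : Q, star c₁ * (c₂ * x) = 0 := fun x => by rw [← mul_assoc, hc.orth, zero_mul]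
  have c4 : ∀ x : Q, star c₂ * (c₁ * x) = 0 := fun x => by rw [← mul_assoc, hc.orth', zero_mul]
  have c5 : ∀ x : Q, c₁ * (star c₁ * x) = x - c₂ * (star c₂ * x) := fun x => by
    rw [← mul_assoc, ← mul_assoc, eq_sub_of_add_eq hc.sum, sub_mul, one_mul]
  set p : Q := 1 - S * star S - T * star T with hp
  set q : Q := 1 - T * star T with hq
  set w : Q := p + S * c₁ * star S + S * c₂ * star T with hw
  have hw1 : star w * w = 1 := by
    rw [hw, hp]
    simp only [star_add, star_sub, star_mul, star_one, star_star, mul_add, add_mul, mul_sub,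
      sub_mul, one_mul, mul_one, mul_assoc, r1, r2, r3, r4, c1, c2, c3, c4, hS, hT, hST, hTS,
      mul_zero, zero_mul]
    abel
  have hw2 : w * star w = q := by
    rw [hw, hp, hq]
    simp only [star_add, star_sub, star_mul, star_one, star_star, mul_add, add_mul, mul_sub,
      sub_mul, one_mul, mul_one, mul_assoc, r1, r2, r3, r4, c1, c2, c3, c4, hS, hT, hST, hTS,
      mul_zero, zero_mul, c5]
    abel
  have hqE : ∀ a, E a * q = q * E a := by
    intro a
    rw [hq, mul_sub, sub_mul, mul_one, one_mul, ← mul_assoc, ← hcT, mul_assoc, ← hcT',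
      ← mul_assoc]
  have hqw : q * w = w := by rw [← hw2, mul_assoc, hw1, mul_one]
  set z₁ : Q := S * q with hz1
  set z₂ : Q := p + S * T * star S with hz2
  have hz11 : star z₁ * z₁ = q := by
    rw [hz1, hq]
    simp only [star_add, star_sub, star_mul, star_one, star_star, mul_add, add_mul, mul_sub,
      sub_mul, one_mul, mul_one, mul_assoc, r1, r2, r3, r4, hS, hT, hST, hTS,
      mul_zero, zero_mul]
    abel
  have hz22 : star z₂ * z₂ = q := by
    rw [hz2, hq, hp]
    simp only [star_add, star_sub, star_mul, star_one, star_star, mul_add, add_mul, mul_sub,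
      sub_mul, one_mul, mul_one, mul_assoc, r1, r2, r3, r4, hS, hT, hST, hTS,
      mul_zero, zero_mul]
    abel
  have hzs : z₁ * star z₁ + z₂ * star z₂ = q := by
    rw [hz1, hz2, hq, hp]
    simp only [star_add, star_sub, star_mul, star_one, star_star, mul_add, add_mul, mul_sub,
      sub_mul, one_mul, mul_one, mul_assoc, r1, r2, r3, r4, hS, hT, hST, hTS,
      mul_zero, zero_mul]
    abel
  have hzE : ∀ a, z₁ * E a = E a * z₁ ∧ z₂ * E a = E a * z₂ := by
    intro a
    have hpE : p * E a = E a * p := by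
      rw [hp]
      simp only [mul_sub, sub_mul, one_mul, mul_one, mul_assoc]
      rw [hcS', hcT', ← mul_assoc S, ← mul_assoc T, hcS, hcT, mul_assoc, mul_assoc]
    constructor
    · rw [hz1, mul_assoc, ← hqE, ← mul_assoc, hcS, mul_assoc]
    · rw [hz2, add_mul, mul_add, hpE]
      congr 1
      rw [mul_assoc, hcS', ← mul_assoc, mul_assoc S, hcT, ← mul_assoc S, hcS]
      simp only [mul_assoc]
  have hqz1 : q * z₁ = z₁ := by
    rw [hz1, hq]
    simp only [mul_sub, sub_mul, one_mul, mul_one, mul_assoc, r4, hTS, mul_zero]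
    abel
  have hqz2 : q * z₂ = z₂ := by
    rw [hz2, hq, hp]
    simp only [mul_add, add_mul, mul_sub, sub_mul, one_mul, mul_one, mul_assoc, r1, r2, r3, r4,
      mul_zero, zero_mul]
    abel
  have hzz : ∀ z : Q, q * z = z → star z * z = q → star (star w * z * w) * (star w * z * w) = 1 := by
    intro z hqz hz
    calc star (star w * z * w) * (star w * z * w) = star w * star z * ((w * star w) * z) * w := by
          simp only [star_mul, star_star, mul_assoc]
      _ = star w * (star z * z) * w := by rw [hw2, hqz]; simp only [mul_assoc]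
      _ = star w * (q * w) := by rw [hz, mul_assoc]
      _ = 1 := by rw [hqw, hw1]
  have hcomm : ∀ a, E a * (w * star w) = (w * star w) * E a := by
    intro a
    rw [hw2, hqE]
  refine ⟨cornerHom E w hw1 hcomm, star w * z₁ * w, star w * z₂ * w, ?_, ⟨?_, ?_, ?_⟩, ?_⟩
  · refine (injective_iff_map_eq_zero _).2 fun a ha => ?_
    rw [cornerHom_apply] at ha
    have h1 : q * E a * q = 0 := by
      calc q * E a * q = w * (star w * E a * w) * star w := by rw [← hw2]; simp only [mul_assoc]
        _ = 0 := by rw [ha]; simp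
    have h2 : star S * (q * E a * q) * S = E a := by
      have hqS : q * S = S := by
        rw [hq, sub_mul, one_mul, mul_assoc, hTS, mul_zero, sub_zero]
      have hSq : star S * q = star S := by
        rw [hq, mul_sub, mul_one, ← mul_assoc, hST, zero_mul, sub_zero]
      calc star S * (q * E a * q) * S = (star S * q) * E a * (q * S) := by
            simp only [mul_assoc]
        _ = E a := by rw [hqS, hSq, hcS', mul_assoc, hS, mul_one]
    rw [h1] at h2
    exact (injective_iff_map_eq_zero E).1 hE a (by rw [← h2]; simp)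
  · exact hzz z₁ hqz1 hz11
  · exact hzz z₂ hqz2 hz22
  · have hterm : ∀ z : Q, z * q = z → star w * z * w * star (star w * z * w) =
        star w * (z * star z) * w := by
      intro z hz
      calc star w * z * w * star (star w * z * w) = star w * (z * (w * star w)) * star z * w := by
            simp only [star_mul, star_star, mul_assoc]
        _ = _ := by rw [hw2, hz]; simp only [mul_assoc]
    have hz1q : z₁ * q = z₁ := by
      rw [← hz11]
      rw [hz1, hq]
      simp only [star_sub, star_mul, star_one, star_star, mul_sub, sub_mul, one_mul, mul_one,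
        mul_assoc, r1, r2, r3, r4, hS, hT, hST, hTS, mul_zero, zero_mul]
      abel
    have hz2q : z₂ * q = z₂ := by
      rw [hz2, hq, hp]
      simp only [mul_add, add_mul, mul_sub, sub_mul, one_mul, mul_one, mul_assoc, r1, r2, r3, r4,
        hST, hTS, mul_zero, zero_mul]
      abel
    rw [hterm _ hz1q, hterm _ hz2q, ← add_mul, ← mul_add, hzs, mul_assoc, hqw, hw1]
  · intro a
    have key : ∀ z : Q, z * E a = E a * z → q * z = z → z * q = z →
        star w * z * w * (star w * E a * w) = star w * E a * w * (star w * z * w) := by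
      intro z hz h1 h2
      calc star w * z * w * (star w * E a * w) = star w * (z * (w * star w)) * E a * w := by
            simp only [mul_assoc]
        _ = star w * (z * E a) * w := by rw [hw2, h2]; simp only [mul_assoc]
        _ = star w * E a * ((w * star w) * z) * w := by rw [hz, hw2, h1]; simp only [mul_assoc]
        _ = _ := by simp only [mul_assoc]
    have hz1q : z₁ * q = z₁ := by
      rw [hz1, mul_assoc, ← hw2, mul_assoc w, ← mul_assoc (star w), hw1, one_mul]
    have hz2q : z₂ * q = z₂ := by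
      rw [hz2, hq, hp]
      simp only [mul_add, add_mul, mul_sub, sub_mul, one_mul, mul_one, mul_assoc, r1, r2, r3, r4,
        hST, hTS, mul_zero, zero_mul]
      abel
    exact ⟨key z₁ (hzE a).1 hqz1 hz1q, key z₂ (hzE a).2 hqz2 hz2q⟩

/-- commutation with the image of a separable algebra -/
theorem exists_commuting_range {O : Type*} [CStarAlgebra O] [Nontrivial O] {s₁ s₂ : O}
    (h : CuntzTwo s₁ s₂) {ω : Ultrafilter ℕ} (hω : (ω : Filter ℕ) ≤ atTop)
    {A : Type*} [CStarAlgebra A] [TopologicalSpace.SeparableSpace A]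
    (e : A →⋆ₐ[ℂ] Ultrapower ω O) :
    ∃ S T : Ultrapower ω O, star S * S = 1 ∧ star T * T = 1 ∧ star S * T = 0 ∧
      ∀ a, S * e a = e a * S ∧ T * e a = e a * T := by
  obtain ⟨S, T, h1, h2, h3, h4⟩ := exists_commuting h hω
    (fun n => e (TopologicalSpace.denseSeq A n))
  have hec : Continuous e := AddMonoidHomClass.continuous_of_bound e 1 fun a => by
    rw [one_mul]; exact NonUnitalStarAlgHom.norm_apply_le e a
  refine ⟨S, T, h1, h2, h3, fun a => ⟨?_, ?_⟩⟩
  · have hcl : IsClosed {a : A | S * e a = e a * S} :=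
      isClosed_eq (continuous_const.mul hec) (hec.mul continuous_const)
    have : closure (Set.range (TopologicalSpace.denseSeq A)) ⊆ {a : A | S * e a = e a * S} :=
      hcl.closure_subset_iff.2 (by rintro _ ⟨n, rfl⟩; exact (h4 n).1)
    exact this ((TopologicalSpace.denseRange_denseSeq A) a)
  · have hcl : IsClosed {a : A | T * e a = e a * T} :=
      isClosed_eq (continuous_const.mul hec) (hec.mul continuous_const)
    have : closure (Set.range (TopologicalSpace.denseSeq A)) ⊆ {a : A | T * e a = e a * T} :=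
      hcl.closure_subset_iff.2 (by rintro _ ⟨n, rfl⟩; exact (h4 n).2)
    exact this ((TopologicalSpace.denseRange_denseSeq A) a)

theorem exists_stable_embedding {O : Type*} [CStarAlgebra O] [Nontrivial O] {s₁ s₂ : O}
    (h : CuntzTwo s₁ s₂) {ω : Ultrafilter ℕ} (hω : (ω : Filter ℕ) ≤ atTop)
    {A : Type*} [CStarAlgebra A] [TopologicalSpace.SeparableSpace A]
    (e : A →⋆ₐ[ℂ] Ultrapower ω O) (he : Function.Injective e) :
    ∃ (e' : A →⋆ₐ[ℂ] Ultrapower ω O) (y₁ y₂ : Ultrapower ω O), Function.Injective e' ∧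
      IsCuntzPair y₁ y₂ ∧ ∀ a, y₁ * e' a = e' a * y₁ ∧ y₂ * e' a = e' a * y₂ := by
  obtain ⟨S, T, h1, h2, h3, h4⟩ := exists_commuting_range h hω e
  exact exists_cornerHom e he (h.pair.map (constHom ω)) h1 h2 h3 (fun a => (h4 a).1)
    fun a => (h4 a).2

/-- Two embeddings that dominate each other and commute with Cuntz pairs are unitarily
equivalent. -/
theorem exists_unitary_of_dominates {D Q : Type*} [CStarAlgebra D] [CStarAlgebra Q]
    (e₁ e₂ : D →⋆ₐ[ℂ] Q) {z₁ z₂ y₁ y₂ : Q} (hz : IsCuntzPair z₁ z₂) (hy : IsCuntzPair y₁ y₂)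
    (hz1 : ∀ d, z₁ * e₁ d = e₁ d * z₁) (hz2 : ∀ d, z₂ * e₁ d = e₁ d * z₂)
    (hy1 : ∀ d, y₁ * e₂ d = e₂ d * y₁) (hy2 : ∀ d, y₂ * e₂ d = e₂ d * y₂)
    {s t : Q} (hs : star s * s = 1) (ht : star t * t = 1)
    (hse : ∀ d, e₁ d * s = s * e₂ d) (hte : ∀ d, e₂ d * t = t * e₁ d) :
    ∃ u : Q, star u * u = 1 ∧ u * star u = 1 ∧ ∀ d, u * e₁ d = e₂ d * u := by
  have hse' : ∀ d, star s * e₁ d = e₂ d * star s := by
    intro d
    have := congr_arg star (hse (star d))
    simpa [map_star] using this
  have hte' : ∀ d, star t * e₂ d = e₁ d * star t := by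
    intro d
    have := congr_arg star (hte (star d))
    simpa [map_star] using this
  have r1 : ∀ x : Q, star s * (s * x) = x := fun x => by rw [← mul_assoc, hs, one_mul]
  have r2 : ∀ x : Q, star t * (t * x) = x := fun x => by rw [← mul_assoc, ht, one_mul]
  have c1 : ∀ x : Q, star y₁ * (y₁ * x) = x := fun x => by rw [← mul_assoc, hy.iso₁, one_mul]
  have c2 : ∀ x : Q, star y₂ * (y₂ * x) = x := fun x => by rw [← mul_assoc, hy.iso₂, one_mul]
  have c3 : ∀ x : Q, star y₁ * (y₂ * x) = 0 := fun x => by rw [← mul_assoc, hy.orth, zero_mul]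
  have c4 : ∀ x : Q, star y₂ * (y₁ * x) = 0 := fun x => by rw [← mul_assoc, hy.orth', zero_mul]
  have c5 : ∀ x : Q, y₁ * (star y₁ * x) = x - y₂ * (star y₂ * x) := fun x => by
    rw [← mul_assoc, ← mul_assoc, eq_sub_of_add_eq hy.sum, sub_mul, one_mul]
  have b1 : ∀ x : Q, star z₁ * (z₁ * x) = x := fun x => by rw [← mul_assoc, hz.iso₁, one_mul]
  have b2 : ∀ x : Q, star z₂ * (z₂ * x) = x := fun x => by rw [← mul_assoc, hz.iso₂, one_mul]
  have b3 : ∀ x : Q, star z₁ * (z₂ * x) = 0 := fun x => by rw [← mul_assoc, hz.orth, zero_mul]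
  have b4 : ∀ x : Q, star z₂ * (z₁ * x) = 0 := fun x => by rw [← mul_assoc, hz.orth', zero_mul]
  have b5 : ∀ x : Q, z₁ * (star z₁ * x) = x - z₂ * (star z₂ * x) := fun x => by
    rw [← mul_assoc, ← mul_assoc, eq_sub_of_add_eq hz.sum, sub_mul, one_mul]
  obtain ⟨a, ha⟩ : ∃ a, a = (1 - s * star s) + s * y₁ * star s := ⟨_, rfl⟩
  obtain ⟨b, hb⟩ : ∃ b, b = s * y₂ := ⟨_, rfl⟩
  obtain ⟨c, hc⟩ : ∃ c, c = (1 - t * star t) + t * z₁ * star t := ⟨_, rfl⟩
  obtain ⟨d, hd⟩ : ∃ d, d = t * z₂ := ⟨_, rfl⟩
  have haa : star a * a = 1 := by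
    rw [ha]
    simp only [star_add, star_sub, star_mul, star_one, star_star, mul_add, add_mul, mul_sub,
      sub_mul, one_mul, mul_one, mul_assoc, r1, c1]
    abel
  have hbb : star b * b = 1 := by
    rw [hb]
    simp only [star_mul, mul_assoc, r1, hy.iso₂]
  have hab : star a * b = 0 := by
    rw [ha, hb]
    simp only [star_add, star_sub, star_mul, star_one, star_star, mul_add, add_mul, mul_sub,
      sub_mul, one_mul, mul_one, mul_assoc, r1, hy.orth, mul_zero]
    abel
  have hab1 : a * star a + b * star b = 1 := by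
    rw [ha, hb]
    simp only [star_add, star_sub, star_mul, star_one, star_star, mul_add, add_mul, mul_sub,
      sub_mul, one_mul, mul_one, mul_assoc, r1, c5]
    abel
  have hcc : star c * c = 1 := by
    rw [hc]
    simp only [star_add, star_sub, star_mul, star_one, star_star, mul_add, add_mul, mul_sub,
      sub_mul, one_mul, mul_one, mul_assoc, r2, b1]
    abel
  have hdd : star d * d = 1 := by
    rw [hd]
    simp only [star_mul, mul_assoc, r2, hz.iso₂]
  have hcd : star c * d = 0 := by
    rw [hc, hd]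
    simp only [star_add, star_sub, star_mul, star_one, star_star, mul_add, add_mul, mul_sub,
      sub_mul, one_mul, mul_one, mul_assoc, r2, hz.orth, mul_zero]
    abel
  have hcd1 : c * star c + d * star d = 1 := by
    rw [hc, hd]
    simp only [star_add, star_sub, star_mul, star_one, star_star, mul_add, add_mul, mul_sub,
      sub_mul, one_mul, mul_one, mul_assoc, r2, b5]
    abel
  have hba : star b * a = 0 := by simpa using congr_arg star hab
  have hdc : star d * c = 0 := by simpa using congr_arg star hcd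
  have hea : ∀ x, a * e₁ x = e₁ x * a := by
    intro x
    rw [ha]
    simp only [mul_add, add_mul, mul_sub, sub_mul, one_mul, mul_one, mul_assoc, hse']
    simp only [← mul_assoc, hse]
    simp only [mul_assoc, ← mul_assoc y₁, hy1]
  have heb : ∀ x, b * e₂ x = e₁ x * b := by
    intro x
    rw [hb, mul_assoc, hy2, ← mul_assoc, ← hse, mul_assoc]
  have hec : ∀ x, c * e₂ x = e₂ x * c := by
    intro x
    rw [hc]
    simp only [mul_add, add_mul, mul_sub, sub_mul, one_mul, mul_one, mul_assoc, hte']
    simp only [← mul_assoc, hte]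
    simp only [mul_assoc, ← mul_assoc z₁, hz1]
  have hed : ∀ x, d * e₁ x = e₂ x * d := by
    intro x
    rw [hd, mul_assoc, hz2, ← mul_assoc, ← hte, mul_assoc]
  have hea' : ∀ x, star a * e₁ x = e₁ x * star a := by
    intro x
    have := congr_arg star (hea (star x))
    simpa [map_star] using this.symm
  have heb' : ∀ x, star b * e₁ x = e₂ x * star b := by
    intro x
    have := congr_arg star (heb (star x))
    simpa [map_star] using this.symm
  have u1 : ∀ x : Q, star a * (a * x) = x := fun x => by rw [← mul_assoc, haa, one_mul]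
  have u2 : ∀ x : Q, star b * (b * x) = x := fun x => by rw [← mul_assoc, hbb, one_mul]
  have u3 : ∀ x : Q, star a * (b * x) = 0 := fun x => by rw [← mul_assoc, hab, zero_mul]
  have u4 : ∀ x : Q, star b * (a * x) = 0 := fun x => by rw [← mul_assoc, hba, zero_mul]
  have v1 : ∀ x : Q, star c * (c * x) = x := fun x => by rw [← mul_assoc, hcc, one_mul]
  have v2 : ∀ x : Q, star d * (d * x) = x := fun x => by rw [← mul_assoc, hdd, one_mul]
  have v3 : ∀ x : Q, star c * (d * x) = 0 := fun x => by rw [← mul_assoc, hcd, zero_mul]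
  have v4 : ∀ x : Q, star d * (c * x) = 0 := fun x => by rw [← mul_assoc, hdc, zero_mul]
  refine ⟨d * star a + c * star b, ?_, ?_, fun x => ?_⟩
  · simp only [star_add, star_mul, star_star, mul_add, add_mul, mul_assoc, v1, v2, v3, v4,
      mul_zero, add_zero, zero_add]
    exact hab1
  · simp only [star_add, star_mul, star_star, mul_add, add_mul, mul_assoc, u1, u2, u3, u4,
      mul_zero, add_zero, zero_add]
    rw [add_comm]
    exact hcd1
  · rw [add_mul, mul_add, mul_assoc, hea', ← mul_assoc, hed, mul_assoc c, heb', ← mul_assoc c,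
      hec]
    simp only [mul_assoc]

end

end Vale.Agent.P083
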