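import Vale.Agent.P083.Excise
import Mathlib.Analysis.CStarAlgebra.GelfandNaimarkSegal
import Mathlib.Analysis.Normed.Module.HahnBanach

open scoped InnerProductSpace ComplexConjugate ComplexOrder
open Filter Topology

namespace Vale.Agent.P083

noncomputable section

/-- A state of a unital C*-algebra, as a norm-one unital functional. -/
structure IsState {O : Type*} [CStarAlgebra O] (g : O →L[ℂ] ℂ) : Prop where
  norm_le : ‖g‖ ≤ 1
  map_one : g 1 = 1

namespace IsState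

variable {O : Type*} [CStarAlgebra O] {g : O →L[ℂ] ℂ}

theorem le (hg : IsState g) (x : O) : ‖g x‖ ≤ ‖x‖ :=
  (g.le_opNorm x).trans (mul_le_of_le_one_left (norm_nonneg _) hg.norm_le)

theorem im_eq_zero (hg : IsState g) {x : O} (hx : IsSelfAdjoint x) : (g x).im = 0 := by
  have key : ∀ t : ℝ, 2 * (g x).im * t ≤ ‖x‖ ^ 2 := by
    intro t
    have h1 : g (x + (Complex.I * t) • 1) = g x + Complex.I * t := by
      rw [map_add, map_smul, hg.map_one, smul_eq_mul, mul_one]
    have h2 : ‖g (x + (Complex.I * t) • (1 : O))‖ ^ 2 ≤ ‖x‖ ^ 2 + t ^ 2 := by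
      have h3 : star (x + (Complex.I * t) • (1 : O)) * (x + (Complex.I * t) • (1 : O)) =
          star x * x + ((t ^ 2 : ℝ) : ℂ) • (1 : O) := by
        have e : (starRingEnd ℂ) (Complex.I * t) = -(Complex.I * t) := by simp
        rw [star_add, star_smul, star_one, RCLike.star_def, e, hx.star_eq]
        simp only [add_mul, mul_add, smul_mul_assoc, mul_smul_comm, one_mul, mul_one, neg_smul,
          neg_mul, smul_add, smul_neg, smul_smul]
        have e2 : Complex.I * (t : ℂ) * (Complex.I * t) = -((t ^ 2 : ℝ) : ℂ) := by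
          have := Complex.I_mul_I
          push_cast
          linear_combination (t : ℂ) ^ 2 * this
        rw [e2]
        module
      calc ‖g (x + (Complex.I * t) • (1 : O))‖ ^ 2 ≤ ‖x + (Complex.I * t) • (1 : O)‖ ^ 2 := by
            gcongr; exact hg.le _
        _ = ‖star x * x + ((t ^ 2 : ℝ) : ℂ) • (1 : O)‖ := by
            rw [pow_two, ← CStarRing.norm_star_mul_self, h3]
        _ ≤ ‖star x * x‖ + ‖((t ^ 2 : ℝ) : ℂ) • (1 : O)‖ := norm_add_le _ _
        _ ≤ ‖x‖ ^ 2 + t ^ 2 := by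
            have h4 : ‖(1 : O)‖ ≤ 1 := by
              rcases subsingleton_or_nontrivial O with hO | hO
              · rw [Subsingleton.elim (1 : O) 0]; simp
              · rw [CStarRing.norm_one]
            rw [CStarRing.norm_star_mul_self, ← pow_two, norm_smul, Complex.norm_real,
              Real.norm_of_nonneg (sq_nonneg t)]
            gcongr
            calc t ^ 2 * ‖(1 : O)‖ ≤ t ^ 2 * 1 := by gcongr
              _ = t ^ 2 := mul_one _
    rw [h1, Complex.sq_norm, Complex.normSq_apply] at h2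
    simp only [Complex.add_re, Complex.mul_re, Complex.I_re, Complex.ofReal_re, zero_mul,
      Complex.I_im, Complex.ofReal_im, mul_zero, sub_self, add_zero, Complex.add_im,
      Complex.mul_im, one_mul, zero_add] at h2
    nlinarith [sq_nonneg (g x).re, sq_nonneg (g x).im]
  by_contra hne
  have h1 := key ((‖x‖ ^ 2 + 1) / (2 * (g x).im))
  rw [mul_div_cancel₀ _ (mul_ne_zero two_ne_zero hne)] at h1
  linarith

variable [PartialOrder O] [StarOrderedRing O]

theorem re_nonneg (hg : IsState g) {x : O} (hx : 0 ≤ x) : 0 ≤ (g x).re := by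
  have h1 : ‖algebraMap ℝ O ‖x‖ - x‖ ≤ ‖x‖ := by
    have h2 : 0 ≤ algebraMap ℝ O ‖x‖ - x :=
      sub_nonneg.2 (IsSelfAdjoint.le_algebraMap_norm_self (.of_nonneg hx))
    refine (CStarAlgebra.norm_le_iff_le_algebraMap _ (norm_nonneg x) h2).2 ?_
    exact sub_le_self _ hx
  have h2 := (hg.le (algebraMap ℝ O ‖x‖ - x)).trans h1
  have h3 : g (algebraMap ℝ O ‖x‖ - x) = (‖x‖ : ℂ) - g x := by
    rw [map_sub, Algebra.algebraMap_eq_smul_one, ← Complex.coe_smul, map_smul, hg.map_one,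
      smul_eq_mul, mul_one]
  rw [h3] at h2
  have h4 : ((‖x‖ : ℂ) - g x).re ≤ ‖x‖ := (Complex.re_le_norm _).trans h2
  simp only [Complex.sub_re, Complex.ofReal_re] at h4
  linarith

theorem nonneg (hg : IsState g) {x : O} (hx : 0 ≤ x) : 0 ≤ g x := by
  rw [Complex.nonneg_iff]
  exact ⟨hg.re_nonneg hx, (hg.im_eq_zero (.of_nonneg hx)).symm⟩

/-- the state as a positive linear map -/
def toPos (hg : IsState g) : O →ₚ[ℂ] ℂ where
  toLinearMap := g
  monotone' := by
    intro x y hxy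
    have := hg.nonneg (sub_nonneg.2 hxy)
    rw [map_sub] at this
    exact sub_nonneg.1 this

theorem toPos_apply (hg : IsState g) (x : O) : hg.toPos x = g x := rfl

end IsState

section

variable {O : Type*} [CStarAlgebra O]

theorem one_add_norm_le [PartialOrder O] [StarOrderedRing O] [Nontrivial O] {h : O} (hh : 0 ≤ h) :
    1 + ‖h‖ ≤ ‖1 + h‖ := by
  have h1 : ‖h‖ ∈ spectrum ℝ h := CStarAlgebra.norm_mem_spectrum_of_nonneg hh
  have h2 : 1 + ‖h‖ ∈ spectrum ℝ (1 + h) := by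
    have := (spectrum.add_mem_add_iff (R := ℝ) (a := h) (r := ‖h‖) (s := 1)).2 h1
    rw [map_one] at this
    rw [add_comm 1 ‖h‖]
    exact this
  have h3 := spectrum.norm_le_norm_of_mem h2
  rwa [Real.norm_of_nonneg (by positivity)] at h3

/-- states attain the norm of a positive element -/
theorem exists_state [PartialOrder O] [StarOrderedRing O] [Nontrivial O] {h : O} (hh : 0 ≤ h) :
    ∃ g : O →L[ℂ] ℂ, IsState g ∧ g h = ‖h‖ := by
  have h0 : 1 + ‖h‖ ≤ ‖1 + h‖ := one_add_norm_le hh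
  have h1 : ‖1 + h‖ = 1 + ‖h‖ := by
    refine le_antisymm ?_ h0
    refine (norm_add_le _ _).trans ?_
    rw [CStarRing.norm_one]
  have hne : ‖1 + h‖ ≠ 0 := by
    intro hc
    rw [hc] at h1
    linarith [norm_nonneg h]
  obtain ⟨g, hg1, hg2⟩ := exists_dual_vector ℂ (1 + h) hne
  have e1 : ‖g 1‖ ≤ 1 := by
    have := g.le_opNorm 1
    rwa [hg1, CStarRing.norm_one, one_mul] at this
  have e2 : ‖g h‖ ≤ ‖h‖ := by
    have := g.le_opNorm h
    rwa [hg1, one_mul] at this
  have e3 : g 1 + g h = ((1 + ‖h‖ : ℝ) : ℂ) := by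
    rw [← map_add, hg2, h1]; rfl
  have e4 : (g 1).re ≤ 1 := (Complex.re_le_norm _).trans e1
  have e5 : (g h).re ≤ ‖h‖ := (Complex.re_le_norm _).trans e2
  have e6 : (g 1).re + (g h).re = 1 + ‖h‖ := by
    have := congrArg Complex.re e3
    rwa [Complex.add_re, Complex.ofReal_re] at this
  have e7 : (g 1).re = 1 := by linarith
  have e8 : (g h).re = ‖h‖ := by linarith
  have aux : ∀ (z : ℂ) (r : ℝ), ‖z‖ ≤ r → z.re = r → z = r := by
    intro z r hz hzr
    have h1 : z.im = 0 := by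
      have h2 : z.re ^ 2 + z.im ^ 2 ≤ r ^ 2 := by
        have h3 : ‖z‖ ^ 2 ≤ r ^ 2 := by gcongr
        rw [Complex.sq_norm, Complex.normSq_apply] at h3
        nlinarith
      rw [hzr] at h2
      have : z.im ^ 2 ≤ 0 := by linarith
      exact pow_eq_zero_iff (two_ne_zero) |>.1 (le_antisymm this (sq_nonneg _))
    exact Complex.ext (by simpa using hzr) (by simpa using h1)
  refine ⟨g, ⟨hg1.le, ?_⟩, aux _ _ e2 e8⟩
  have := aux _ 1 e1 e7
  simpa using this

/-- The cyclic vector of the GNS representation. -/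
theorem gns_vector [PartialOrder O] [StarOrderedRing O] (f : O →ₚ[ℂ] ℂ) (hf : f 1 = 1) :
    ∃ ξ : f.GNS, ‖ξ‖ = 1 ∧ ∀ x, ⟪ξ, f.gnsStarAlgHom x ξ⟫_ℂ = f x := by
  let ξ : f.GNS := ((f.toPreGNS 1 : f.PreGNS) : f.GNS)
  have hin : ∀ x : O, ⟪ξ, f.gnsStarAlgHom x ξ⟫_ℂ = f x := by
    intro x
    have h1 : f.gnsStarAlgHom x ξ = ((f.leftMulMapPreGNS x (f.toPreGNS 1) : f.PreGNS) : f.GNS) :=
      f.gnsNonUnitalStarAlgHom_apply_coe
    rw [h1, UniformSpace.Completion.inner_coe, f.preGNS_inner_def]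
    simp
  have hξ : ‖ξ‖ = 1 := by
    have h1 := hin 1
    rw [map_one, hf] at h1
    have h2 : ⟪ξ, ξ⟫_ℂ = 1 := h1
    rw [inner_self_eq_norm_sq_to_K] at h2
    have h3 : ‖ξ‖ ^ 2 = 1 := by
      have h4 : ((‖ξ‖ ^ 2 : ℝ) : ℂ) = ((1 : ℝ) : ℂ) := by simpa using h2
      exact Complex.ofReal_injective h4
    exact (pow_eq_one_iff_of_nonneg (norm_nonneg _) two_ne_zero).1 h3
  exact ⟨ξ, hξ, hin⟩

/-- Excision of states in a C*-algebra generated by a Cuntz pair. -/
theorem excise_state {s₁ s₂ : O} (h : CuntzTwo s₁ s₂) {g : O →L[ℂ] ℂ} (hg : IsState g)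
    (X : Finset O) {ε : ℝ} (hε : 0 < ε) :
    ∃ v : O, star v * v = 1 ∧ ∀ x ∈ X, ‖star v * x * v - g x • (1 : O)‖ ≤ ε := by
  let _ := CStarAlgebra.spectralOrder O
  let _ := CStarAlgebra.spectralOrderedRing O
  let f : O →ₚ[ℂ] ℂ := hg.toPos
  obtain ⟨ξ, hξ, hin⟩ := gns_vector f hg.map_one
  obtain ⟨v, hv1, hv2⟩ := excise_vector f.gnsStarAlgHom h ξ hξ X hε
  refine ⟨v, hv1, fun x hx => ?_⟩
  have := hv2 x hx
  rw [hin x] at this
  exact this

/-- A unital functional which is nonnegative on all `star N * N` is a state. -/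
theorem isState_of_pos (φ : O →ₗ[ℂ] ℂ) (h1 : φ 1 = 1) (hpos : ∀ N, 0 ≤ φ (star N * N)) :
    ∃ g : O →L[ℂ] ℂ, IsState g ∧ ∀ x, g x = φ x := by
  let _ := CStarAlgebra.spectralOrder O
  let _ := CStarAlgebra.spectralOrderedRing O
  let f : O →ₚ[ℂ] ℂ :=
    { toLinearMap := φ
      monotone' := by
        intro x y hxy
        obtain ⟨N, hN⟩ := CStarAlgebra.nonneg_iff_eq_star_mul_self.1 (sub_nonneg.2 hxy)
        have := hpos N
        rw [← hN, map_sub] at this
        exact sub_nonneg.1 this }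
  obtain ⟨ξ, hξ, hin⟩ := gns_vector f h1
  have hb : ∀ x, ‖φ x‖ ≤ 1 * ‖x‖ := by
    intro x
    have e : φ x = ⟪ξ, f.gnsStarAlgHom x ξ⟫_ℂ := (hin x).symm
    rw [e]
    calc _ ≤ ‖ξ‖ * ‖f.gnsStarAlgHom x ξ‖ := norm_inner_le_norm _ _
      _ ≤ ‖ξ‖ * (‖x‖ * ‖ξ‖) := by gcongr; exact norm_pi_apply_le _ _ _
      _ = 1 * ‖x‖ := by rw [hξ]; ring
  refine ⟨φ.mkContinuous 1 hb, ⟨φ.mkContinuous_norm_le zero_le_one hb, h1⟩, fun x => rfl⟩

end

end

end Vale.Agent.P083
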