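import Vale.Agent.P083.UltrapowerDef
import Mathlib.Analysis.CStarAlgebra.Hom
import Mathlib.Analysis.Normed.Group.Quotient
import Mathlib.Order.Filter.Ultrafilter.Defs
import Mathlib.Topology.Algebra.Order.LiminfLimsup

open Filter Topology
open scoped ENNReal

namespace Vale.Agent.P083

noncomputable section

universe u

variable (ω : Ultrafilter ℕ) (B : Type u) [CStarAlgebra B] [Nontrivial B]

variable {ω B} in
theorem mem_nullIdeal {x : Bdd B} : x ∈ nullIdeal ω B ↔ Tendsto (fun n => ‖x n‖) ω (𝓝 0) :=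
  Iff.rfl

instance isClosed_nullIdeal : IsClosed ((nullIdeal ω B : Ideal (Bdd B)) : Set (Bdd B)) := by
  refine isClosed_of_closure_subset fun x hx => ?_
  show Tendsto (fun n => ‖x n‖) ω (𝓝 0)
  rw [Metric.tendsto_nhds]
  intro ε hε
  obtain ⟨y, hy, hxy⟩ := Metric.mem_closure_iff.1 hx (ε / 2) (by positivity)
  have hy' : Tendsto (fun n => ‖y n‖) ω (𝓝 0) := hy
  filter_upwards [(Metric.tendsto_nhds.1 hy') (ε / 2) (by positivity)] with n hn
  simp only [dist_zero_right, norm_norm] at hn ⊢
  have h1 : ‖x n - y n‖ ≤ ‖x - y‖ := Bdd.norm_apply_le (x - y) n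
  have h2 : ‖x n‖ ≤ ‖x n - y n‖ + ‖y n‖ := by
    simpa using norm_add_le (x n - y n) (y n)
  rw [dist_eq_norm] at hxy
  linarith

namespace Ultrapower

instance instNACG : NormedAddCommGroup (Ultrapower ω B) :=
  Submodule.Quotient.normedAddCommGroup (nullIdeal ω B)

instance : CompleteSpace (Ultrapower ω B) :=
  Submodule.Quotient.completeSpace (nullIdeal ω B)

variable {B} in
/-- The quotient map. -/
def mk (x : Bdd B) : Ultrapower ω B := Ideal.Quotient.mk (nullIdeal ω B) x

variable {B} in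
theorem mk_surjective : Function.Surjective (mk ω : Bdd B → Ultrapower ω B) :=
  Ideal.Quotient.mk_surjective

variable {ω B} in
theorem mk_eq_mk {x y : Bdd B} :
    mk ω x = mk ω y ↔ Tendsto (fun n => ‖x n - y n‖) ω (𝓝 0) := by
  show Ideal.Quotient.mk (nullIdeal ω B) x = Ideal.Quotient.mk (nullIdeal ω B) y ↔ _
  rw [Ideal.Quotient.mk_eq_mk_iff_sub_mem]
  rfl

@[simp] theorem mk_add (x y : Bdd B) : mk ω (x + y) = mk ω x + mk ω y :=
  map_add (Ideal.Quotient.mk (nullIdeal ω B)) x y

@[simp] theorem mk_sub (x y : Bdd B) : mk ω (x - y) = mk ω x - mk ω y :=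
  map_sub (Ideal.Quotient.mk (nullIdeal ω B)) x y

@[simp] theorem mk_mul (x y : Bdd B) : mk ω (x * y) = mk ω x * mk ω y :=
  map_mul (Ideal.Quotient.mk (nullIdeal ω B)) x y

@[simp] theorem mk_one : mk ω (1 : Bdd B) = 1 :=
  map_one (Ideal.Quotient.mk (nullIdeal ω B))

@[simp] theorem mk_zero : mk ω (0 : Bdd B) = 0 :=
  map_zero (Ideal.Quotient.mk (nullIdeal ω B))

@[simp] theorem mk_neg (x : Bdd B) : mk ω (-x) = -mk ω x :=
  map_neg (Ideal.Quotient.mk (nullIdeal ω B)) x

@[simp] theorem mk_smul (c : ℂ) (x : Bdd B) : mk ω (c • x) = c • mk ω x := rfl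

variable {B} in
/-- For a bounded sequence, the norms converge along the ultrafilter. -/
theorem exists_lim (x : Bdd B) : ∃ L : ℝ, 0 ≤ L ∧ Tendsto (fun n => ‖x n‖) ω (𝓝 L) := by
  have hcpt : IsCompact (Set.Icc (0 : ℝ) ‖x‖) := isCompact_Icc
  have hle : ((ω.map (fun n => ‖x n‖) : Ultrafilter ℝ) : Filter ℝ) ≤ 𝓟 (Set.Icc (0 : ℝ) ‖x‖) := by
    rw [le_principal_iff, Ultrafilter.coe_map, mem_map]
    exact Filter.Eventually.of_forall fun n => ⟨norm_nonneg _, Bdd.norm_apply_le x n⟩
  obtain ⟨L, hL, h⟩ := hcpt.ultrafilter_le_nhds (ω.map (fun n => ‖x n‖)) hle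
  exact ⟨L, hL.1, h⟩

variable {ω B} in
/-- The norm of the ultrapower is the limit of the norms. -/
theorem norm_mk_eq {x : Bdd B} {L : ℝ} (hL : Tendsto (fun n => ‖x n‖) ω (𝓝 L)) :
    ‖mk ω x‖ = L := by
  have hL0 : 0 ≤ L := ge_of_tendsto' hL (fun n => norm_nonneg _)
  have key : ∀ y : Bdd B, mk ω y = mk ω x → L ≤ ‖y‖ := by
    intro y hy
    have h1 := mk_eq_mk.1 hy.symm
    have h2 : Tendsto (fun n => ‖x n‖ - ‖x n - y n‖) ω (𝓝 (L - 0)) := hL.sub h1
    rw [sub_zero] at h2
    refine le_of_tendsto' h2 fun n => ?_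
    have h3 : ‖x n‖ ≤ ‖x n - y n‖ + ‖y n‖ := by simpa using norm_add_le (x n - y n) (y n)
    have := Bdd.norm_apply_le y n
    linarith
  apply le_antisymm
  · refine le_of_forall_pos_le_add fun ε hε => ?_
    -- truncate
    have hmem : Memℓp (fun n => if ‖x n‖ < L + ε then x n else (0 : B)) ∞ := by
      refine memℓp_infty ⟨L + ε, ?_⟩
      rintro _ ⟨n, rfl⟩
      dsimp only
      split_ifs with h
      · exact h.le
      · simpa using by positivity
    let y : Bdd B := ⟨_, hmem⟩
    have hy : ∀ n, y n = if ‖x n‖ < L + ε then x n else (0 : B) := fun n => rfl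
    have hxy : mk ω y = mk ω x := by
      rw [mk_eq_mk]
      refine Tendsto.congr' ?_ tendsto_const_nhds
      filter_upwards [hL.eventually_lt_const (by linarith : L < L + ε)] with n hn
      rw [hy n, if_pos hn]; simp
    rw [← hxy]
    calc ‖mk ω y‖ ≤ ‖y‖ := Submodule.Quotient.norm_mk_le (nullIdeal ω B) y
      _ ≤ L + ε := by
        refine lp.norm_le_of_forall_le (by positivity) fun n => ?_
        rw [hy n]
        split_ifs with h
        · exact h.le
        · simpa using by positivity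
  · refine le_of_forall_pos_le_add fun ε hε => ?_
    obtain ⟨y, hy, hy2⟩ := Submodule.Quotient.norm_mk_lt (S := nullIdeal ω B) (mk ω x) hε
    exact (key y hy).trans hy2.le

variable {ω B} in
theorem tendsto_norm (x : Bdd B) : Tendsto (fun n => ‖x n‖) ω (𝓝 ‖mk ω x‖) := by
  obtain ⟨L, -, hL⟩ := exists_lim ω x
  rwa [norm_mk_eq hL]

@[simp] theorem mk_star (x : Bdd B) : mk ω (star x) = star (mk ω x) := rfl

instance : StarRing (Ultrapower ω B) where
  star_involutive := by
    intro x
    obtain ⟨x, rfl⟩ := mk_surjective ω x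
    rw [← mk_star, ← mk_star, star_star]
  star_mul := by
    intro x y
    obtain ⟨x, rfl⟩ := mk_surjective ω x
    obtain ⟨y, rfl⟩ := mk_surjective ω y
    rw [← mk_star, ← mk_star, ← mk_mul, ← mk_mul, ← mk_star, star_mul]
  star_add := by
    intro x y
    obtain ⟨x, rfl⟩ := mk_surjective ω x
    obtain ⟨y, rfl⟩ := mk_surjective ω y
    rw [← mk_star, ← mk_star, ← mk_add, ← mk_add, ← mk_star, star_add]

instance : StarModule ℂ (Ultrapower ω B) where
  star_smul := by
    intro c x
    obtain ⟨x, rfl⟩ := mk_surjective ω x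
    rw [← mk_smul, ← mk_star, ← mk_star, star_smul, mk_smul]

instance instNormedRing : NormedRing (Ultrapower ω B) where
  __ := (inferInstance : Ring (Ultrapower ω B))
  __ := instNACG ω B
  norm_mul_le := by
    intro x y
    obtain ⟨x, rfl⟩ := mk_surjective ω x
    obtain ⟨y, rfl⟩ := mk_surjective ω y
    rw [← mk_mul]
    have h1 := tendsto_norm (ω := ω) x
    have h2 := tendsto_norm (ω := ω) y
    have h3 := tendsto_norm (ω := ω) (x * y)
    refine le_of_tendsto_of_tendsto' h3 (h1.mul h2) fun n => ?_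
    simpa using norm_mul_le (x n) (y n)

instance : NormedAlgebra ℂ (Ultrapower ω B) where
  __ := (inferInstance : Algebra ℂ (Ultrapower ω B))
  norm_smul_le := by
    intro c x
    obtain ⟨x, rfl⟩ := mk_surjective ω x
    rw [← mk_smul]
    have h1 := (tendsto_norm (ω := ω) x).const_mul ‖c‖
    have h3 := tendsto_norm (ω := ω) (c • x)
    refine le_of_tendsto_of_tendsto' h3 h1 fun n => ?_
    simp [norm_smul]

instance : CStarRing (Ultrapower ω B) where
  norm_mul_self_le := by
    intro x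
    obtain ⟨x, rfl⟩ := mk_surjective ω x
    rw [← mk_star, ← mk_mul]
    have h1 := tendsto_norm (ω := ω) x
    have h3 := tendsto_norm (ω := ω) (star x * x)
    refine le_of_tendsto_of_tendsto' (h1.mul h1) h3 fun n => ?_
    simp [CStarRing.norm_star_mul_self]

instance : CStarAlgebra (Ultrapower ω B) where

end Ultrapower

end

end Vale.Agent.P083
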