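import Vale.Agent.P083.State
import Vale.Agent.P083.Ultrapower
import Mathlib.Analysis.InnerProductSpace.Projection.Minimal
import Mathlib.Analysis.InnerProductSpace.PiL2

open scoped InnerProductSpace ComplexConjugate ComplexOrder ENNReal
open Filter Topology

namespace Vale.Agent.P083

noncomputable section

/-- diagonal choice along a free filter -/
theorem exists_diag {l : Filter ℕ} (hl : l ≤ atTop) (P : ℕ → ℕ → Prop)
    (hP : ∀ m, ∀ᶠ n in l, P m n) :
    ∃ g : ℕ → ℕ, Tendsto g l atTop ∧ ∀ᶠ n in l, P (g n) n := by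
  classical
  let P' : ℕ → ℕ → Prop := fun m n => ∀ j ≤ m, P j n
  have hP' : ∀ m, ∀ᶠ n in l, P' m n := by
    intro m
    have : ∀ᶠ n in l, ∀ j ∈ Finset.range (m + 1), P j n :=
      (Finset.eventually_all _).2 fun j _ => hP j
    filter_upwards [this] with n hn j hj
    exact hn j (Finset.mem_range.2 (by omega))
  refine ⟨fun n => Nat.findGreatest (fun m => P' m n) n, ?_, ?_⟩
  · rw [tendsto_atTop]
    intro M
    filter_upwards [hP' M, hl (eventually_ge_atTop M)] with n h1 h2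
    exact Nat.le_findGreatest h2 h1
  · filter_upwards [hP' 0] with n h1
    have := Nat.findGreatest_spec (P := fun m => P' m n) (Nat.zero_le n) h1
    exact this _ le_rfl

section

variable {O : Type*} [CStarAlgebra O] [Nontrivial O]

omit [Nontrivial O] in
theorem isState_convex (g g' : O →L[ℂ] ℂ) (hg : IsState g) (hg' : IsState g') (a b : ℝ)
    (ha : 0 ≤ a) (hb : 0 ≤ b) (hab : a + b = 1) :
    IsState ((a : ℂ) • g + (b : ℂ) • g') := by
  constructor
  · calc ‖(a : ℂ) • g + (b : ℂ) • g'‖ ≤ ‖(a : ℂ) • g‖ + ‖(b : ℂ) • g'‖ := norm_add_le _ _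
      _ = a * ‖g‖ + b * ‖g'‖ := by
          rw [norm_smul, norm_smul, Complex.norm_real, Complex.norm_real, Real.norm_of_nonneg ha,
            Real.norm_of_nonneg hb]
      _ ≤ a * 1 + b * 1 := by
          gcongr
          · exact hg.norm_le
          · exact hg'.norm_le
      _ = 1 := by linarith
  · simp only [add_apply, smul_apply, hg.map_one, hg'.map_one, smul_eq_mul, mul_one]
    exact_mod_cast hab

theorem exists_isState : ∃ g : O →L[ℂ] ℂ, IsState g := by
  let _ := CStarAlgebra.spectralOrder O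
  let _ := CStarAlgebra.spectralOrderedRing O
  obtain ⟨g, hg, -⟩ := exists_state (O := O) (h := 0) le_rfl
  exact ⟨g, hg⟩

/-- separation step: if no state of `O` has values near `z` then some unit vector separates. -/
theorem exists_separating {ι : Type*} [Fintype ι] (y : ι → O) (z : EuclideanSpace ℝ ι) {δ : ℝ}
    (hδ : 0 < δ)
    (hno : ¬ ∃ g : O →L[ℂ] ℂ, IsState g ∧ ∀ i, |(g (y i)).re - z i| ≤ δ) :
    ∃ l : EuclideanSpace ℝ ι, ‖l‖ ≤ 1 ∧ ∀ g : O →L[ℂ] ℂ, IsState g →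
      ∑ i, l i * (g (y i)).re ≤ ∑ i, l i * z i - δ := by
  let w : (O →L[ℂ] ℂ) → EuclideanSpace ℝ ι := fun g => WithLp.toLp 2 fun i => (g (y i)).re
  let K : Set (EuclideanSpace ℝ ι) := w '' {g | IsState g}
  have hK0 : K.Nonempty := by
    obtain ⟨g, hg⟩ := exists_isState (O := O)
    exact ⟨_, g, hg, rfl⟩
  have hKc : Convex ℝ K := by
    rintro _ ⟨g, hg, rfl⟩ _ ⟨g', hg', rfl⟩ a b ha hb hab
    refine ⟨(a : ℂ) • g + (b : ℂ) • g', isState_convex g g' hg hg' a b ha hb hab, ?_⟩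
    ext i
    simp [w]
  have hfar : ∀ p ∈ K, δ ≤ ‖z - p‖ := by
    rintro _ ⟨g, hg, rfl⟩
    by_contra hlt
    rw [not_le] at hlt
    apply hno
    refine ⟨g, hg, fun i => ?_⟩
    have h1 : ‖(z - w g) i‖ ≤ ‖z - w g‖ := PiLp.norm_apply_le _ i
    have h2 : (z - w g) i = z i - (g (y i)).re := rfl
    rw [h2, Real.norm_eq_abs, abs_sub_comm] at h1
    linarith
  have hfar' : ∀ p ∈ closure K, δ ≤ ‖z - p‖ := by
    intro p hp
    refine closure_minimal (t := {p | δ ≤ ‖z - p‖}) hfar ?_ hp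
    exact isClosed_le continuous_const (by fun_prop)
  obtain ⟨p, hp, hp2⟩ := exists_norm_eq_iInf_of_complete_convex hK0.closure
    isClosed_closure.isComplete hKc.closure z
  have hp3 := (norm_eq_iInf_iff_real_inner_le_zero hKc.closure hp).1 hp2
  have hzp := hfar' p hp
  have hpos : 0 < ‖z - p‖ := lt_of_lt_of_le hδ hzp
  refine ⟨‖z - p‖⁻¹ • (z - p), ?_, fun g hg => ?_⟩
  · rw [norm_smul, norm_inv, norm_norm, inv_mul_cancel₀ hpos.ne']
  · have h1 := hp3 (w g) (subset_closure ⟨g, hg, rfl⟩)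
    have h2 : ⟪z - p, w g⟫_ℝ ≤ ⟪z - p, z⟫_ℝ - ‖z - p‖ * ‖z - p‖ := by
      have e1 : ⟪z - p, w g - p⟫_ℝ = ⟪z - p, w g⟫_ℝ - ⟪z - p, p⟫_ℝ := inner_sub_right _ _ _
      have e2 : ⟪z - p, z - p⟫_ℝ = ⟪z - p, z⟫_ℝ - ⟪z - p, p⟫_ℝ := inner_sub_right _ _ _
      rw [real_inner_self_eq_norm_mul_norm] at e2
      linarith
    have e3 : ∀ v : EuclideanSpace ℝ ι, ⟪z - p, v⟫_ℝ = ∑ i, (z - p) i * v i := by
      intro v
      simp [PiLp.inner_apply, mul_comm]
    rw [e3, e3] at h2
    have h4 : ∀ v : ι → ℝ, ∑ i, (‖z - p‖⁻¹ • (z - p)) i * v i =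
        ‖z - p‖⁻¹ * ∑ i, (z - p) i * v i := by
      intro v
      rw [Finset.mul_sum]
      refine Finset.sum_congr rfl fun i _ => ?_
      simp [mul_assoc]
    rw [h4, h4]
    have h5 : ‖z - p‖⁻¹ * ∑ i, (z - p) i * (g (y i)).re ≤
        ‖z - p‖⁻¹ * (∑ i, (z - p) i * z i - ‖z - p‖ * ‖z - p‖) := by
      gcongr
    refine h5.trans ?_
    rw [mul_sub, ← mul_assoc, inv_mul_cancel₀ hpos.ne', one_mul]
    linarith

/-- If the real numbers `z i` are compatible with the norms of the ultrapower, they are limits of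
values of states of `O` at the coordinates. -/
theorem state_limit (ω : Ultrafilter ℕ) {ι : Type*} [Fintype ι] (y : ι → Bdd O)
    (hy : ∀ i n, IsSelfAdjoint (y i n)) (z : EuclideanSpace ℝ ι)
    (hz : ∀ (l : EuclideanSpace ℝ ι) (M : ℝ),
      ∑ i, l i * z i + M ≤ ‖Ultrapower.mk ω (∑ i, (l i : ℂ) • y i + (M : ℂ) • 1)‖)
    {δ : ℝ} (hδ : 0 < δ) :
    ∀ᶠ n in (ω : Filter ℕ), ∃ g : O →L[ℂ] ℂ, IsState g ∧ ∀ i, |(g (y i n)).re - z i| ≤ δ := by
  by_contra hcon
  have hbad : ∀ᶠ n in (ω : Filter ℕ),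
      ¬ ∃ g : O →L[ℂ] ℂ, IsState g ∧ ∀ i, |(g (y i n)).re - z i| ≤ δ :=
    Ultrafilter.eventually_not.2 hcon
  have hsep : ∀ n : ℕ, ∃ l : EuclideanSpace ℝ ι, ‖l‖ ≤ 1 ∧
      ((¬ ∃ g : O →L[ℂ] ℂ, IsState g ∧ ∀ i, |(g (y i n)).re - z i| ≤ δ) →
        ∀ g : O →L[ℂ] ℂ, IsState g →
          ∑ i, l i * (g (y i n)).re ≤ ∑ i, l i * z i - δ) := by
    intro n
    by_cases hn : ∃ g : O →L[ℂ] ℂ, IsState g ∧ ∀ i, |(g (y i n)).re - z i| ≤ δ
    · exact ⟨0, by simp, fun h => absurd hn h⟩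
    · obtain ⟨l, hl1, hl2⟩ := exists_separating (fun i => y i n) z hδ hn
      exact ⟨l, hl1, fun _ => hl2⟩
  choose l hl1 hl2 using hsep
  have hcpt : IsCompact (Metric.closedBall (0 : EuclideanSpace ℝ ι) 1) := isCompact_closedBall _ _
  obtain ⟨L, -, hL⟩ := hcpt.ultrafilter_le_nhds (ω.map l) (by
    rw [le_principal_iff, Ultrafilter.coe_map, mem_map]
    exact Filter.Eventually.of_forall fun n => by simpa using hl1 n)
  have hL' : Tendsto l ω (𝓝 L) := hL
  let S : Bdd O := ∑ i, (L i : ℂ) • y i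
  have hS : ∀ n, S n = ∑ i, (L i : ℂ) • y i n := by
    intro n
    simp only [S, lp.coeFn_sum, Finset.sum_apply, lp.coeFn_smul, Pi.smul_apply]
  have hSa : ∀ n, IsSelfAdjoint (S n) := by
    intro n
    rw [hS, isSelfAdjoint_iff, star_sum]
    refine Finset.sum_congr rfl fun i _ => ?_
    rw [star_smul, (hy i n).star_eq]
    congr 1
    exact Complex.conj_ofReal _
  let M : ℝ := ‖S‖
  let _ := CStarAlgebra.spectralOrder O
  let _ := CStarAlgebra.spectralOrderedRing O
  let T : Bdd O := S + (M : ℂ) • 1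
  have hT : ∀ n, T n = S n + algebraMap ℝ O M := by
    intro n
    show S n + (M : ℂ) • (1 : O) = _
    rw [Algebra.algebraMap_eq_smul_one, Complex.coe_smul]
  have hTpos : ∀ n, 0 ≤ T n := by
    intro n
    rw [hT]
    have h1 := IsSelfAdjoint.neg_algebraMap_norm_le_self (hSa n)
    have h2 : algebraMap ℝ O ‖S n‖ ≤ algebraMap ℝ O M :=
      algebraMap_mono O (Bdd.norm_apply_le S n)
    have h3 : -S n ≤ algebraMap ℝ O ‖S n‖ := by
      have := neg_le_neg h1
      rwa [neg_neg] at this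
    have h4 := h3.trans h2
    have := add_le_add_left h4 (S n)
    rw [add_comm]
    simpa using this
  have hlim := Ultrapower.tendsto_norm (ω := ω) T
  have hz' := hz L M
  let R : ℝ := ∑ i, ‖y i‖
  have hbound : ∀ᶠ n in (ω : Filter ℕ), ‖T n‖ ≤
      (∑ i, l n i * z i - δ) + (∑ i, |L i - l n i| * ‖y i‖) + M := by
    filter_upwards [hbad] with n hn
    obtain ⟨g, hg, hgT⟩ := exists_state (hTpos n)
    have h1 := hl2 n hn g hg
    have h2 : g (T n) = ∑ i, (L i : ℂ) * g (y i n) + M := by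
      show g (S n + (M : ℂ) • (1 : O)) = _
      rw [map_add, map_smul, hg.map_one, smul_eq_mul, mul_one, hS, map_sum]
      simp
    have h3 : ‖T n‖ = ∑ i, L i * (g (y i n)).re + M := by
      have := congrArg Complex.re (hgT.symm.trans h2)
      simpa using this
    have h4 : ∑ i, L i * (g (y i n)).re ≤
        ∑ i, l n i * (g (y i n)).re + ∑ i, |L i - l n i| * ‖y i‖ := by
      rw [← Finset.sum_add_distrib]
      refine Finset.sum_le_sum fun i _ => ?_
      have h5 : (L i - l n i) * (g (y i n)).re ≤ |L i - l n i| * ‖y i‖ := by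
        calc (L i - l n i) * (g (y i n)).re ≤ |(L i - l n i) * (g (y i n)).re| := le_abs_self _
          _ = |L i - l n i| * |(g (y i n)).re| := abs_mul _ _
          _ ≤ |L i - l n i| * ‖y i‖ := by
              gcongr
              exact (Complex.abs_re_le_norm _).trans ((hg.le _).trans (Bdd.norm_apply_le _ n))
      linarith
    rw [h3]
    linarith
  have hcoord : ∀ i, Tendsto (fun n => l n i) ω (𝓝 (L i)) := fun i =>
    ((EuclideanSpace.proj (𝕜 := ℝ) i).continuous.tendsto L).comp hL'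
  have hR : Tendsto (fun n => (∑ i, l n i * z i - δ) + (∑ i, |L i - l n i| * ‖y i‖) + M) ω
      (𝓝 ((∑ i, L i * z i - δ) + (∑ i, |L i - L i| * ‖y i‖) + M)) := by
    refine ((Tendsto.sub_const ?_ δ).add ?_).add_const M
    · exact tendsto_finsetSum _ fun i _ => (hcoord i).mul_const _
    · exact tendsto_finsetSum _ fun i _ => ((tendsto_const_nhds.sub (hcoord i)).abs).mul_const _
  have hfin := le_of_tendsto_of_tendsto hlim hR hbound
  simp only [sub_self, abs_zero, zero_mul, Finset.sum_const_zero, add_zero] at hfin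
  have : ∑ i, L i * z i + M ≤ ‖Ultrapower.mk ω T‖ := hz'
  linarith

end

end

end Vale.Agent.P083
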