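import Mathlib.Analysis.CStarAlgebra.lpSpace
import Mathlib.RingTheory.Ideal.Quotient.Operations

open Filter Topology
open scoped ENNReal

namespace Vale.Agent.P083

noncomputable section

universe u v

/-- The C*-algebra of norm-bounded sequences in `B` with the supremum norm. -/
abbrev Bdd (B : Type u) [CStarAlgebra B] [Nontrivial B] : Type u := lp (fun _ : ℕ => B) ∞

variable (ω : Ultrafilter ℕ) (B : Type u) [CStarAlgebra B] [Nontrivial B]

variable {B} in
theorem Bdd.norm_apply_le (x : Bdd B) (n : ℕ) : ‖x n‖ ≤ ‖x‖ := lp.norm_apply_le_norm (by simp) x n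

variable {B} in
/-- The sequence `x` is null along `ω`. -/
def IsNull (x : Bdd B) : Prop := Tendsto (fun n => ‖x n‖) ω (𝓝 0)

variable {ω B}

theorem IsNull.add {x y : Bdd B} (hx : IsNull ω x) (hy : IsNull ω y) : IsNull ω (x + y) := by
  have h : Tendsto (fun n => ‖x n‖ + ‖y n‖) ω (𝓝 0) := by simpa using Tendsto.add hx hy
  exact squeeze_zero (fun n => norm_nonneg _) (fun n => norm_add_le (x n) (y n)) h

theorem IsNull.zero : IsNull ω (0 : Bdd B) := by
  show Tendsto (fun n => ‖((0 : Bdd B) : ℕ → B) n‖) ω (𝓝 0)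
  simp

theorem IsNull.mul_left (c : Bdd B) {x : Bdd B} (hx : IsNull ω x) : IsNull ω (c * x) := by
  have h : Tendsto (fun n => ‖c‖ * ‖x n‖) ω (𝓝 0) := by
    simpa using Tendsto.const_mul ‖c‖ hx
  refine squeeze_zero (fun n => norm_nonneg _) (fun n => ?_) h
  calc ‖((c * x : Bdd B) : ℕ → B) n‖ = ‖c n * x n‖ := by simp
    _ ≤ ‖c n‖ * ‖x n‖ := norm_mul_le _ _
    _ ≤ ‖c‖ * ‖x n‖ := by gcongr; exact Bdd.norm_apply_le c n

theorem IsNull.mul_right {x : Bdd B} (c : Bdd B) (hx : IsNull ω x) : IsNull ω (x * c) := by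
  have h : Tendsto (fun n => ‖x n‖ * ‖c‖) ω (𝓝 0) := by
    simpa using Tendsto.mul_const ‖c‖ hx
  refine squeeze_zero (fun n => norm_nonneg _) (fun n => ?_) h
  calc ‖((x * c : Bdd B) : ℕ → B) n‖ = ‖x n * c n‖ := by simp
    _ ≤ ‖x n‖ * ‖c n‖ := norm_mul_le _ _
    _ ≤ ‖x n‖ * ‖c‖ := by gcongr; exact Bdd.norm_apply_le c n

variable (ω B)

/-- The ideal of bounded sequences whose norms tend to zero along `ω`. -/
def nullIdeal : Ideal (Bdd B) where
  carrier := {x | IsNull ω x}
  add_mem' := IsNull.add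
  zero_mem' := IsNull.zero
  smul_mem' := IsNull.mul_left

instance : (nullIdeal ω B).IsTwoSided := ⟨IsNull.mul_right⟩

/-- The norm ultrapower `B^ω = ℓ^∞(ℕ, B) / I_ω(B)`. -/
def Ultrapower : Type u := Bdd B ⧸ nullIdeal ω B

namespace Ultrapower

instance : Ring (Ultrapower ω B) := inferInstanceAs (Ring (Bdd B ⧸ nullIdeal ω B))

instance : Algebra ℂ (Ultrapower ω B) := inferInstanceAs (Algebra ℂ (Bdd B ⧸ nullIdeal ω B))

theorem star_rel (x y : Bdd B) (hxy : (nullIdeal ω B).quotientRel x y) :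
    (nullIdeal ω B).quotientRel (star x) (star y) := by
  rw [Submodule.quotientRel_def] at hxy ⊢
  have h : Tendsto (fun n => ‖x n - y n‖) ω (𝓝 0) := hxy
  show Tendsto (fun n => ‖star (x n) - star (y n)‖) ω (𝓝 0)
  simpa only [← star_sub, norm_star] using h

instance instStar : Star (Ultrapower ω B) := ⟨Quotient.map' star (star_rel ω B)⟩

end Ultrapower

end

end Vale.Agent.P083
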